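import Crest.Agent.R182.B3.Close

/-! R182/B3/Fin: the logarithmic error (owner helper65; statements frozen, tell helper65 if one is false). -/

set_option autoImplicit false
set_option linter.unusedVariables false
set_option linter.unusedSectionVars false
open Set Filter Topology MeasureTheory ProbabilityTheory Matrix Crest.GroupTheory
open scoped Pointwise commutatorElement ENNReal

noncomputable section
namespace Crest.Agent.R182

namespace Model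
variable {h k : ℕ} (M : Model h k)

/-- `g = gen i ^ n` has length `≤ n` (`apilena_zpow`, `apilena_gen`) and height `n • Pi.single i 1` (`chi_pow`, `chi_gen`), so
`n |(r' ᵥ* L - r) i| ≤ nm r' * k * (ε n + |B|) + |B'| log (2 + n)` (`abs_dot_le`); let `n → ∞`.  Choose `ε` with
`nm r' * k * ε < |(r' ᵥ* L - r) i|` for one `i` at which the two vectors differ (if they are equal take `ε = 1`). -/
theorem rb_eq (r r' : Fin k → ℝ) (L : Mat k) : ∃ ε : ℝ, 0 < ε ∧ ∀ (φ : M.G → M.G) (B B' : ℝ), (M.Prof φ L fun n => ε * n + B) →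
    (∀ q g : M.G, |r' ⬝ᵥ M.cc φ g q - r ⬝ᵥ M.chi g| ≤ B' * Real.log (2 + M.len g)) → r = r' ᵥ* L := by
  by_cases hr : r = r' ᵥ* L
  · exact ⟨1, one_pos, fun _ _ _ _ _ => hr⟩
  obtain ⟨i, hi⟩ := Function.ne_iff.1 hr
  set δ : ℝ := |(r' ᵥ* L) i - r i| with hδ
  have hδ0 : 0 < δ := abs_pos.2 (sub_ne_zero.2 (Ne.symm hi))
  set c : ℝ := nm r' * k with hc
  have hc0 : 0 ≤ c := mul_nonneg (nm_nonneg _) (Nat.cast_nonneg _)
  refine ⟨δ / (2 * (c + 1)), by positivity, fun φ B B' hP hL => ?_⟩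
  exfalso
  set ε : ℝ := δ / (2 * (c + 1)) with hε
  have hε0 : 0 < ε := by positivity
  have hcε : c * ε ≤ δ / 2 := by
    have : (c + 1) * ε = δ / 2 := by rw [hε]; field_simp
    nlinarith
  set A : ℝ := 4 * (|B'| + 1) / δ with hA
  have hA0 : 0 < A := by positivity
  have hBA : |B'| / A ≤ δ / 4 := by
    rw [div_le_iff₀ hA0]
    have : δ / 4 * A = |B'| + 1 := by rw [hA]; field_simp
    linarith
  have key : ∀ n : ℕ, δ / 4 * n ≤ c * |B| + δ / 2 + |B'| * |Real.log A| := by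
    intro n
    have hlen : (M.len (M.gen i ^ n) : ℝ) ≤ n := by
      have := M.apilena_zpow (M.apilena_gen i) (n : ℤ)
      rw [zpow_natCast] at this
      exact_mod_cast (by simpa using this)
    have hl0 : (0 : ℝ) ≤ M.len (M.gen i ^ n) := Nat.cast_nonneg _
    have h1 := hP 1 (M.gen i ^ n)
    have h2 := hL 1 (M.gen i ^ n)
    have h3 := abs_dot_le r' (M.cc φ (M.gen i ^ n) 1 - L *ᵥ M.chi (M.gen i ^ n))
    have e1 : r' ⬝ᵥ (L *ᵥ M.chi (M.gen i ^ n)) - r ⬝ᵥ M.chi (M.gen i ^ n) = n * ((r' ᵥ* L) i - r i) := by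
      rw [dotProduct_mulVec, M.chi_pow, M.chi_gen]
      simp [mul_sub]
    have h4 : n * δ ≤ |r' ⬝ᵥ M.cc φ (M.gen i ^ n) 1 - r ⬝ᵥ M.chi (M.gen i ^ n)| +
        |r' ⬝ᵥ (M.cc φ (M.gen i ^ n) 1 - L *ᵥ M.chi (M.gen i ^ n))| := by
      have : (n : ℝ) * δ = |n * ((r' ᵥ* L) i - r i)| := by rw [abs_mul, Nat.abs_cast]
      rw [this, ← e1, dotProduct_sub]
      have := abs_sub (r' ⬝ᵥ M.cc φ (M.gen i ^ n) 1 - r ⬝ᵥ M.chi (M.gen i ^ n))
        (r' ⬝ᵥ M.cc φ (M.gen i ^ n) 1 - r' ⬝ᵥ (L *ᵥ M.chi (M.gen i ^ n)))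
      refine le_of_eq_of_le ?_ this
      congr 1
      ring
    have h5 : nm r' * (k * ‖M.cc φ (M.gen i ^ n) 1 - L *ᵥ M.chi (M.gen i ^ n)‖) ≤ c * (ε * n + |B|) := by
      rw [← mul_assoc]
      refine mul_le_mul_of_nonneg_left (h1.trans ?_) hc0
      have := le_abs_self B
      have := mul_le_mul_of_nonneg_left hlen hε0.le
      linarith
    have h6 : Real.log (2 + M.len (M.gen i ^ n)) ≤ (2 + n) / A + |Real.log A| := by
      have a1 : Real.log (2 + M.len (M.gen i ^ n)) ≤ Real.log (2 + n) :=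
        Real.log_le_log (by positivity) (by linarith)
      have a2 := Real.log_le_sub_one_of_pos (show 0 < (2 + (n : ℝ)) / A by positivity)
      rw [Real.log_div (by positivity) hA0.ne'] at a2
      have := le_abs_self (Real.log A)
      linarith
    have h7 : B' * Real.log (2 + M.len (M.gen i ^ n)) ≤ |B'| * ((2 + n) / A + |Real.log A|) :=
      (mul_le_mul_of_nonneg_right (le_abs_self B') (Real.log_nonneg (by linarith))).trans
        (mul_le_mul_of_nonneg_left h6 (abs_nonneg _))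
    have h8 : |B'| * ((2 + n) / A) ≤ δ / 4 * (2 + n) := by
      have := mul_le_mul_of_nonneg_right hBA (show (0 : ℝ) ≤ 2 + n by positivity)
      calc |B'| * ((2 + n) / A) = |B'| / A * (2 + n) := by ring
        _ ≤ _ := this
    have h9 := mul_le_mul_of_nonneg_right hcε (Nat.cast_nonneg (α := ℝ) n)
    nlinarith
  obtain ⟨n, hn⟩ := exists_nat_gt ((c * |B| + δ / 2 + |B'| * |Real.log A|) / (δ / 4))
  rw [div_lt_iff₀ (by positivity)] at hn
  have := key n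
  linarith

/-- `rb_close`, `rb_eq`, `Prof.mono`, `mI_congr hd.fwd`, `dotProduct_mulVec` -/
theorem b3_dir (K : ℝ) {L : Mat k} (hL : L ∈ M.W1) {d d' : M.G} (hd : M.Dir L d d') : ∃ ε : ℝ, 0 < ε ∧ ∀ B : ℝ, ∃ B' : ℝ,
    ∀ f : M.QP K, (M.Prof f.φ L fun n => ε * n + B) → ∀ q g : M.G,
      |M.rb (M.mI (L *ᵥ M.chi d)) ⬝ᵥ (M.cc f.φ g q - L *ᵥ M.chi g)| ≤ B' * Real.log (2 + M.len g) := by
  obtain ⟨ε₁, h₁, H₁⟩ := M.rb_close K hL hd
  obtain ⟨ε₂, h₂, H₂⟩ := M.rb_eq (M.rb (M.mI (M.chi d))) (M.rb (M.mI (M.chi d'))) L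
  refine ⟨min ε₁ ε₂, lt_min h₁ h₂, fun B => ?_⟩
  obtain ⟨B', H₁⟩ := H₁ B
  refine ⟨B', fun f hP q g => ?_⟩
  have h1 := H₁ f (hP.mono (min_le_left _ _) le_rfl)
  have h2 := H₂ f.φ B B' (hP.mono (min_le_right _ _) le_rfl) h1
  rw [M.mI_congr hd.fwd, dotProduct_sub, dotProduct_mulVec, ← h2]
  exact h1 q g

/-- `exists_dirs`, `Dirs.dir`, `b3_dir`, `exists_unif` over `W1 ×ˢ 𝒟`, `Dirs.span'` -/
theorem b3_of' (K : ℝ) : ∃ ε : ℝ, 0 < ε ∧ ∀ B : ℝ, ∃ B' : ℝ, ∀ (f : M.QP K), ∀ L ∈ M.W1, (M.Prof f.φ L fun n => ε * n + B) →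
    M.Prof f.φ L fun n => B' * Real.log (2 + n) := by
  obtain ⟨𝒟, h𝒟⟩ := M.exists_dirs
  obtain ⟨C, hC, HS⟩ := h𝒟.span'
  have hlog : ∀ g : M.G, 0 ≤ Real.log (2 + M.len g) := fun g =>
    Real.log_nonneg (by have : (0 : ℝ) ≤ M.len g := Nat.cast_nonneg _; linarith)
  obtain ⟨ε, hε, H⟩ := exists_unif (M.finite_W1.prod 𝒟.finite_toSet) (fun i ε B B' => ∀ f : M.QP K,
      (M.Prof f.φ i.1 fun n => ε * n + B) → ∀ q g : M.G,
        |M.rb (M.mI (i.1 *ᵥ M.chi i.2)) ⬝ᵥ (M.cc f.φ g q - i.1 *ᵥ M.chi g)| ≤ B' * Real.log (2 + M.len g))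
    (fun i ε ε' B B' B'' _ h1 h2 h f hP q g => (h f (hP.mono h1 le_rfl) q g).trans (mul_le_mul_of_nonneg_right h2 (hlog g)))
    (fun i hi => let ⟨d', _, hd⟩ := h𝒟.dir hi.2 hi.1; M.b3_dir K hi.1 hd)
  refine ⟨ε, hε, fun B => ?_⟩
  obtain ⟨B', hB', H⟩ := H B
  refine ⟨C * B', fun f L hL hP q g => ?_⟩
  simp only [mul_assoc]
  exact HS L hL _ _ (mul_nonneg hB' (hlog g)) fun d hd => H (L, d) ⟨hL, hd⟩ f hP q g

end Model

end Crest.Agent.R182
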