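import Crest.Agent.R182.B.CMP

/-! R182/B3/Base: definitions, monotonicity, uniformisation, the inverse map (owner helper65; statements frozen, tell helper65 if one is false). -/

set_option autoImplicit false
set_option linter.unusedVariables false
set_option linter.unusedSectionVars false
open Set Filter Topology MeasureTheory ProbabilityTheory Matrix Crest.GroupTheory
open scoped Pointwise commutatorElement ENNReal

noncomputable section
namespace Crest.Agent.R182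

namespace Model
variable {h k : ℕ} (M : Model h k)

/-- logarithmic increments along `exp E` -/
def Hie (φ : M.G → M.G) (H : ℝ) : Prop :=
  ∀ (q : M.G) (ρ : ℝ), 1 ≤ ρ → ∀ X ∈ M.E, ‖X‖ ≤ Real.exp ρ → ‖M.cc φ (M.exp X) q‖ ≤ H * Real.log (1 + ρ)

/-- the `β`-height of the image of the path `l` starting at `p` stays below `r` -/
def Lw (φ : M.G → M.G) (β : Fin k → ℝ) (p : M.G) (l : List M.G) (r : ℝ) : Prop :=
  ∀ l', l' <+: l → β ⬝ᵥ M.cc φ l'.prod p ≤ r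

theorem Prof.mono {M : Model h k} {φ : M.G → M.G} {L : Mat k} {ε ε' B B' : ℝ} (hP : M.Prof φ L fun n => ε * n + B) (hε : ε ≤ ε')
    (hB : B ≤ B') : M.Prof φ L fun n => ε' * n + B' := by
  exact fun p g => (hP p g).trans (add_le_add (mul_le_mul_of_nonneg_right hε (Nat.cast_nonneg _)) hB)

/-- finitely many statements of the form `∃ ε, ∀ B, ∃ B'` hold with common constants (`Set.Finite.induction_on`, `min`, `max`) -/
theorem _root_.Crest.Agent.R182.exists_unif {ι : Type*} {s : Set ι} (hs : s.Finite) (P : ι → ℝ → ℝ → ℝ → Prop)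
    (hm : ∀ i ε ε' B B' B'', 0 < ε' → ε' ≤ ε → B' ≤ B'' → P i ε B B' → P i ε' B B'')
    (hP : ∀ i ∈ s, ∃ ε : ℝ, 0 < ε ∧ ∀ B : ℝ, ∃ B' : ℝ, P i ε B B') :
    ∃ ε : ℝ, 0 < ε ∧ ∀ B : ℝ, ∃ B' : ℝ, 0 ≤ B' ∧ ∀ i ∈ s, P i ε B B' := by
  induction s, hs using Set.Finite.induction_on with
  | empty => exact ⟨1, one_pos, fun B => ⟨0, le_rfl, by simp⟩⟩
  | @insert a s _ _ ih =>
    obtain ⟨ε, hε, H⟩ := ih fun i hi => hP i (mem_insert_of_mem _ hi)
    obtain ⟨ε', hε', H'⟩ := hP a (mem_insert _ _)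
    refine ⟨min ε ε', lt_min hε hε', fun B => ?_⟩
    obtain ⟨B₁, h1, H1⟩ := H B
    obtain ⟨B₂, H2⟩ := H' B
    refine ⟨max B₁ B₂, le_max_of_le_left h1, ?_⟩
    rintro i (rfl | hi)
    · exact hm _ _ _ _ _ _ (lt_min hε hε') (min_le_right _ _) (le_max_right _ _) H2
    · exact hm _ _ _ _ _ _ (lt_min hε hε') (min_le_left _ _) (le_max_left _ _) (H1 i hi)

/-- `u = (ψ p)⁻¹ * ψ (p * g)` has length `≤ K len g + K`, `cc ψ g p = chi u` (`cc_eq`), `Prof` at `(ψ p, u)` and `f.right`, `norm_chi_le` give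
`‖chi g - L *ᵥ chi u‖ ≤ ε (K n + K) + B + 2 K`; apply `L⁻¹` (`Mb.norm_mulVec`); `D = 1 + k |Λ| (3 |K| + 1)`. -/
theorem Prof.symm' {M : Model h k} (K Λ : ℝ) : ∃ D : ℝ, 1 ≤ D ∧ ∀ (f : M.QP K) (L : Mat k) (ε B : ℝ), 0 ≤ ε → ε ≤ 1 → 0 ≤ B →
    L.det ≠ 0 → Mb L Λ → Mb L⁻¹ Λ → (M.Prof f.φ L fun n => ε * n + B) →
      M.Prof f.ψ L⁻¹ fun n => D * ε * n + D * (B + 1) := by
  have hc : 0 ≤ k * |Λ| := by positivity
  have hc' : 0 ≤ k * |Λ| * (3 * |K| + 1) := by positivity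
  refine ⟨1 + k * |Λ| * (3 * |K| + 1), by linarith, fun f L ε B hε hε1 hB hL _ hΛ hP p g => ?_⟩
  have hK := f.one_le
  rw [abs_of_pos (show 0 < K by linarith), M.cc_eq]
  set u := (f.ψ p)⁻¹ * f.ψ (p * g) with hu
  have h1 : (M.len u : ℝ) ≤ K * M.len g + K := by simpa only [inv_mul_cancel_left] using f.lψ p (p * g)
  have h2 := hP (f.ψ p) u
  have h3 : ∀ y, ‖M.chi (f.φ (f.ψ y)) - M.chi y‖ ≤ K := fun y => by
    have := (M.norm_chi_le _).trans (f.right y)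
    rwa [M.chi_mul, M.chi_inv, neg_add_eq_sub] at this
  have e1 : L *ᵥ M.chi u - M.chi g = (M.chi (f.φ (f.ψ (p * g))) - M.chi (p * g)) - (M.chi (f.φ (f.ψ p)) - M.chi p) -
      (M.cc f.φ u (f.ψ p) - L *ᵥ M.chi u) := by
    rw [cc, hu, mul_inv_cancel_left, M.chi_mul p g]; abel
  have h4 : ‖L *ᵥ M.chi u - M.chi g‖ ≤ 2 * K + (ε * (K * M.len g + K) + B) := by
    rw [e1]
    refine (norm_sub_le _ _).trans (add_le_add ((norm_sub_le _ _).trans ?_) (h2.trans ?_))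
    · linarith [h3 (p * g), h3 p]
    · dsimp only; gcongr
  have e2 : M.chi u - L⁻¹ *ᵥ M.chi g = L⁻¹ *ᵥ (L *ᵥ M.chi u - M.chi g) := by
    rw [mulVec_sub, mulVec_mulVec, Matrix.nonsing_inv_mul _ (Ne.isUnit hL), one_mulVec]
  rw [e2]
  refine (hΛ.norm_mulVec _).trans ((mul_le_mul (mul_le_mul_of_nonneg_left (le_abs_self Λ) (Nat.cast_nonneg k)) h4
    (norm_nonneg _) hc).trans ?_)
  generalize (k : ℝ) * |Λ| = c at *
  have hn : (0 : ℝ) ≤ M.len g := Nat.cast_nonneg _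
  have a1 : 0 ≤ ε * M.len g := mul_nonneg hε hn
  have a2 : 0 ≤ c * K := by positivity
  nlinarith [mul_nonneg a2 a1, mul_nonneg hc a1, mul_nonneg a2 hB, mul_nonneg a2 (sub_nonneg.2 hε1)]

/-- both maps at once: `exists_mb_W1`, `inv_mem_W1`, `Prof.symm'`, `ε = min 1 ε₀ / D`, `B₁ = D * (max B 0 + 1)` -/
theorem exists_both (K : ℝ) {ε₀ : ℝ} (h0 : 0 < ε₀) : ∃ ε : ℝ, 0 < ε ∧ ∀ B : ℝ, ∃ B₁ : ℝ, 0 ≤ B₁ ∧ ∀ f : M.QP K, ∀ L ∈ M.W1,
    (M.Prof f.φ L fun n => ε * n + B) → (M.Prof f.φ L fun n => ε₀ * n + B₁) ∧ M.Prof f.ψ L⁻¹ fun n => ε₀ * n + B₁ := by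
  obtain ⟨Λ, -, hΛ⟩ := M.exists_mb_W1
  obtain ⟨D, hD, H⟩ := Prof.symm' (M := M) K Λ
  have hD0 : 0 < D := by linarith
  have hm : 0 < min 1 ε₀ := lt_min one_pos h0
  have hle : min 1 ε₀ / D ≤ min 1 ε₀ := div_le_self hm.le hD
  have hB : ∀ B : ℝ, 0 ≤ max B 0 := fun B => le_max_right _ _
  refine ⟨min 1 ε₀ / D, by positivity, fun B => ⟨D * (max B 0 + 1), by have := hB B; positivity, fun f L hL hP => ⟨?_, ?_⟩⟩⟩
  · exact hP.mono (hle.trans (min_le_right _ _)) (by nlinarith [hB B, le_max_left B 0])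
  · exact (H f L _ _ (by positivity) (hle.trans (min_le_left _ _)) (hB B) hL.1 (hΛ L hL) (hΛ _ (M.inv_mem_W1 hL))
      (hP.mono le_rfl (le_max_left _ _))).mono (by rw [mul_div_cancel₀ _ hD0.ne']; exact min_le_right _ _) le_rfl

end Model

end Crest.Agent.R182
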