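import Crest.Agent.R182.B3.Base

/-! R182/B3/CH: the hypothesis of the comparison lemma (owner helper65; statements frozen, tell helper65 if one is false). -/

set_option autoImplicit false
set_option linter.unusedVariables false
set_option linter.unusedSectionVars false
open Set Filter Topology MeasureTheory ProbabilityTheory Matrix Crest.GroupTheory
open scoped Pointwise commutatorElement ENNReal

noncomputable section
namespace Crest.Agent.R182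

namespace Model
variable {h k : ℕ} (M : Model h k)

theorem cha_P2 : ∃ C : ℝ, 1 ≤ C ∧ ∀ (φ : M.G → M.G) (U U' : Submodule ℝ (V h)) (ρ R r₀ r₁ : ℝ), M.GI U → 1 ≤ ρ → ρ ≤ R → 0 ≤ r₀ →
    (∀ q, ∀ X ∈ U, ‖X‖ ≤ Real.exp (C * (R + r₀)) → M.G1 φ U' r₁ q (M.exp X)) → ∀ q, ∀ g ∈ M.ballR r₀, M.P2 φ U U' ρ r₁ q g := by
  obtain ⟨B₁, hB₁, h₁⟩ := M.norm_Qi
  obtain ⟨B₂, hB₂, h₂⟩ := M.exists_norm_Ad_le
  refine ⟨B₁ + B₂, by linarith, fun φ U U' ρ R r₀ r₁ hU hρ hR hr₀ hG q g hg => ?_⟩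
  refine le_trans (le_of_eq (measure_mono_null (fun x hx => ?_) (M.lw_compl U (M.isCompact_Gv ρ)))) bot_le
  rintro ⟨X, ⟨hX, hX'⟩, rfl⟩
  refine hx ?_
  have e := M.conj g⁻¹ X
  rw [inv_inv] at e
  rw [e]
  refine hG q _ (hU.Ad _ _ hX) ((h₂ _ _).trans ?_)
  have h3 := h₁ _ ρ hρ (fun Y hY => hY.2) X hX'
  have h4 : (M.len g : ℝ) ≤ r₀ := hg
  rw [M.len_inv]
  calc _ ≤ Real.exp (B₂ * r₀) * Real.exp (B₁ * R) := by
        gcongr
        exact h3.trans (by gcongr)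
    _ ≤ _ := by
        rw [← Real.exp_add, Real.exp_le_exp]
        nlinarith

/-- The exceptional set of `P2` lies in the null set `(exp '' (U ∩ Gv R))ᶜ` (`lw_compl`, `isCompact_Gv`): for `X ∈ U ∩ Gv R`,
`g⁻¹ * exp X * g = exp (Ad g⁻¹ X)` (`conj`), `Ad g⁻¹ X ∈ U` (`GI.Ad`), `norm_Qi`, `exists_norm_Ad_le`, `len_inv`.  The exceptional sets of `H3` and `P3` are empty. -/
theorem ch_of_g1 : ∃ C : ℝ, 1 ≤ C ∧ ∀ (φ ψ : M.G → M.G) (U U' : Submodule ℝ (V h)) (R r r₀ r₁ : ℝ), M.GI U → M.GI U' →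
    1 ≤ r → r ≤ R → 0 ≤ r₀ → (∀ q, ∀ X ∈ U, ‖X‖ ≤ Real.exp (C * (R + r₀)) → M.G1 φ U' r₁ q (M.exp X)) →
      (∀ q, ∀ X ∈ U', ‖X‖ ≤ Real.exp (C * (R + r₀)) → M.G1 ψ U r₁ q (M.exp X)) →
        ∀ q, ∀ g ∈ M.ballR r₀, M.CH φ ψ U U' U' R r r₁ q g := by
  obtain ⟨C, hC, H⟩ := M.cha_P2
  refine ⟨C, hC, fun φ ψ U U' R r r₀ r₁ hU hU' hr hR hr₀ h1 h2 q g hg =>
    ⟨H φ U U' R R r₀ r₁ hU (hr.trans hR) le_rfl hr₀ h1 q 1 (M.one_mem_ballR hr₀),
      H φ U U' R R r₀ r₁ hU (hr.trans hR) le_rfl hr₀ h1 _ g hg, ?_⟩⟩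
  have h3 : ∀ q, M.H3 φ ψ U U' r r₁ q := fun q => by
    have h4 := fun q' => H ψ U' U r R r₀ r₁ hU' hr hR hr₀ h2 q' 1 (M.one_mem_ballR hr₀)
    simp [H3, h4]
  simp [P3, h3]

/-- `log (2 + r₀) ≤ 2 r₀`, so the argument of the logarithm is at most `(2 + r₀) * (C * (1 + 2 b))`; `1 ≤ log (2 + r₀)`; it suffices to have
`a * (1 + log (C * (1 + 2 b))) ≤ b`, true for large `b` (e.g. `log x ≤ 2 √x`, or `Real.isLittleO_log_id_atTop`) -/
theorem _root_.Crest.Agent.R182.exists_fix {a C : ℝ} (ha : 0 ≤ a) (hC : 1 ≤ C) : ∃ b : ℝ, 1 ≤ b ∧ ∀ r₀ : ℝ, 1 ≤ r₀ →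
    a * Real.log (2 + C * (r₀ + b * Real.log (2 + r₀))) ≤ b * Real.log (2 + r₀) := by
  obtain ⟨t, ht⟩ : ∃ t, t = 6 * (a + 1) * C := ⟨_, rfl⟩
  have ht0 : 0 < t := by rw [ht]; positivity
  obtain ⟨b, hb⟩ : ∃ b, b = 2 * (a * t) + 1 := ⟨_, rfl⟩
  have hat : 0 ≤ a * t := by positivity
  have hb1 : 1 ≤ b := by linarith
  refine ⟨b, hb1, fun r hr => ?_⟩
  have h1 : 1 ≤ Real.log (2 + r) := by
    rw [Real.le_log_iff_exp_le (by linarith)]
    linarith [Real.exp_one_lt_d9]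
  have h2 : Real.log (2 + r) ≤ 2 * r := by linarith [Real.log_le_sub_one_of_pos (show 0 < 2 + r by linarith)]
  have hx : 1 ≤ C * (1 + 2 * b) := by nlinarith
  have h3 : 2 + C * (r + b * Real.log (2 + r)) ≤ (2 + r) * (C * (1 + 2 * b)) := by
    have := mul_le_mul_of_nonneg_left h2 (show 0 ≤ C * b by positivity)
    nlinarith
  have h4 : Real.log (2 + C * (r + b * Real.log (2 + r))) ≤ Real.log (2 + r) + Real.log (C * (1 + 2 * b)) := by
    rw [← Real.log_mul (by linarith) (by linarith)]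
    exact Real.log_le_log (by positivity) h3
  have h5 : Real.log (C * (1 + 2 * b)) ≤ C * (1 + 2 * b) / t - 1 + (t - 1) := by
    have e : C * (1 + 2 * b) = C * (1 + 2 * b) / t * t := by field_simp
    conv_lhs => rw [e, Real.log_mul (by positivity) ht0.ne']
    exact add_le_add (Real.log_le_sub_one_of_pos (by positivity)) (Real.log_le_sub_one_of_pos ht0)
  have h6 : a * (C * (1 + 2 * b) / t) ≤ b / 2 := by
    rw [← mul_div_assoc, div_le_iff₀ ht0, ht]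
    have : 0 ≤ C * b := by positivity
    have : a * C * 1 ≤ a * C * b := mul_le_mul_of_nonneg_left hb1 (by positivity)
    nlinarith
  have h7 : a * (1 + Real.log (C * (1 + 2 * b))) ≤ b := by
    have := mul_le_mul_of_nonneg_left h5 ha
    nlinarith
  have h8 := mul_le_mul_of_nonneg_left h1 (Real.log_nonneg hx)
  calc _ ≤ a * ((1 + Real.log (C * (1 + 2 * b))) * Real.log (2 + r)) := mul_le_mul_of_nonneg_left (by nlinarith) ha
    _ ≤ _ := by rw [← mul_assoc]; exact mul_le_mul_of_nonneg_right h7 (by linarith)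

end Model

end Crest.Agent.R182
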