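import Crest.Agent.R182.B3.Base

/-! R182/B3/G1: the event `G1` holds everywhere (owner helper65; statements frozen, tell helper65 if one is false). -/

set_option autoImplicit false
set_option linter.unusedVariables false
set_option linter.unusedSectionVars false
open Set Filter Topology MeasureTheory ProbabilityTheory Matrix Crest.GroupTheory
open scoped Pointwise commutatorElement ENNReal

noncomputable section
namespace Crest.Agent.R182

namespace Model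
variable {h k : ℕ} (M : Model h k)

theorem b3g_pow (g : M.G) (j : ℕ) : g⁻¹ ^ j ∈ M.ballR (j * M.len g) := by
  induction j with
  | zero => simpa using M.one_mem_ballR le_rfl
  | succ j ih =>
    have h1 : g⁻¹ ∈ M.ballR (M.len g) := M.inv_mem_ballR (show ((M.len g : ℕ) : ℝ) ≤ M.len g from le_rfl)
    have h2 := M.mul_mem_ballR ih h1
    rw [pow_succ]
    exact M.ballR_mono (le_of_eq (by push_cast; ring)) h2

omit M in
theorem b3g_min {ι : Type*} [Finite ι] (P : ι → Prop) (a : ι → ℝ) (ha : ∀ i, P i → 0 < a i) :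
    ∃ c : ℝ, 0 < c ∧ ∀ i, P i → c ≤ a i := by
  classical
  by_cases hne : ∃ i, P i
  · obtain ⟨i₀, hi₀⟩ := hne
    haveI : Nonempty {i // P i} := ⟨⟨i₀, hi₀⟩⟩
    obtain ⟨i, hi⟩ := Finite.exists_min (fun i : {i // P i} => a i.1)
    exact ⟨a i.1, ha _ i.2, fun j hj => hi ⟨j, hj⟩⟩
  · exact ⟨1, one_pos, fun i hi => absurd ⟨i, hi⟩ hne⟩

theorem b3g_N : ∃ N : ℝ, 1 ≤ N ∧ ∀ (i : Fin h) (b : Fin k → ℝ), M.wt i ⬝ᵥ b ≤ N * ‖b‖ := by
  refine ⟨1 + (∑ i, nm (M.wt i)) * k, ?_, fun i b => ?_⟩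
  · have : 0 ≤ (∑ i, nm (M.wt i)) * k := mul_nonneg (Finset.sum_nonneg fun i _ => nm_nonneg _) (Nat.cast_nonneg _)
    linarith
  · have h1 := (le_abs_self _).trans (abs_dot_le (M.wt i) b)
    have h2 : nm (M.wt i) ≤ ∑ i, nm (M.wt i) :=
      Finset.single_le_sum (f := fun i => nm (M.wt i)) (fun i _ => nm_nonneg _) (Finset.mem_univ i)
    have h3 : 0 ≤ (k : ℝ) * ‖b‖ := by positivity
    have h4 := mul_le_mul_of_nonneg_right h2 h3
    have h5 := norm_nonneg b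
    nlinarith

omit M in
theorem b3g_A (L : Mat k) : ∃ A : ℝ, 0 ≤ A ∧ ∀ a : Fin k → ℝ, ‖L *ᵥ a‖ ≤ A * ‖a‖ := by
  have hL : Mb L (∑ i, ∑ j, |L i j|) := fun i j =>
    (Finset.single_le_sum (f := fun j => |L i j|) (fun _ _ => abs_nonneg _) (Finset.mem_univ j)).trans
      (Finset.single_le_sum (f := fun i => ∑ j, |L i j|) (fun _ _ => Finset.sum_nonneg fun _ _ => abs_nonneg _) (Finset.mem_univ i))
  exact ⟨k * ∑ i, ∑ j, |L i j|, by positivity, hL.norm_mulVec⟩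

omit M in
theorem b3g_log {Λ R : ℝ} (hΛ : 1 ≤ Λ) (hR : 1 ≤ R) : 1 ≤ Real.log (2 + R) ∧ Real.log (1 + Λ * R) ≤ Λ * Real.log (2 + R) := by
  have h1 : 1 ≤ Real.log (2 + R) := by
    rw [Real.le_log_iff_exp_le (by linarith)]
    have := Real.exp_one_lt_d9
    linarith
  refine ⟨h1, ?_⟩
  have h2 : Real.log (1 + Λ * R) ≤ Real.log (Λ * (2 + R)) := Real.log_le_log (by nlinarith) (by nlinarith)
  rw [Real.log_mul (by linarith) (by linarith)] at h2
  have h3 := Real.log_le_sub_one_of_pos (show 0 < Λ by linarith)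
  nlinarith

/-- The word `l` of `exists_mword` (`hd.mem`) and `exists_pmq` with `v = chi d'` (`hd.reg'`).  For a prefix `exp Y * (s * d⁻¹ ^ j * s')`:
`cc = cc (exp Y) q + cc (s * d⁻¹ ^ j * s') (q * exp Y)` (`cc_mul`); the first term is `≤ H log (1 + Λ R)` (`Hie`), the second is
`L *ᵥ (chi s - j • chi d + chi s')` up to `ε₀ (2 Λ + j len d) + B` (`Prof`).  If `0 < wt i ⬝ᵥ chi d'` then `c₀ ≤ wt i ⬝ᵥ L *ᵥ chi d` (`hd.fwd`, `c₀ > 0` a minimum
over finitely many `i`); choose `ε₀ ≤ 1` with `nm (wt i) * k * ε₀ * len d ≤ c₀` (`abs_dot_le`).  So `r = C₁ (H log (1 + Λ R) + B + 1)`;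
`log (1 + Λ R) ≤ Λ log (2 + R)` (Bernoulli), `1 ≤ log (2 + R)`, `G1.mono`; `mI ≤ E` by `gi_mI`.  If `K < 1` there is no `f`. -/
theorem g1_all (K : ℝ) {L : Mat k} {d d' : M.G} (hd : M.Dir L d d') : ∃ ε₀ C : ℝ, 0 < ε₀ ∧ 1 ≤ C ∧
    ∀ (f : M.QP K) (B H : ℝ), 0 ≤ B → 0 ≤ H → (M.Prof f.φ L fun n => ε₀ * n + B) → M.Hie f.φ H → ∀ R : ℝ, 1 ≤ R → ∀ q : M.G,
      ∀ X ∈ M.mI (M.chi d), ‖X‖ ≤ Real.exp R →
        M.G1 f.φ (M.mI (M.chi d')) (C * (H + B + 1) * Real.log (2 + R)) q (M.exp X) := by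
  by_cases hK : 0 ≤ K
  swap
  · exact ⟨1, 1, one_pos, le_rfl, fun f => absurd (zero_le_one.trans f.one_le) hK⟩
  obtain ⟨Λ, hΛ, hw⟩ := M.exists_mword hd.mem
  obtain ⟨B₀, hB₀, hq⟩ := M.exists_pmq K hK
  obtain ⟨c₀, hc₀, hc⟩ := b3g_min (fun i => 0 < M.wt i ⬝ᵥ M.chi d') (fun i => M.wt i ⬝ᵥ (L *ᵥ M.chi d))
    (fun i hi => (hd.fwd i).1.2 hi)
  obtain ⟨N, hN, hNb⟩ := M.b3g_N
  obtain ⟨A, hA, hAb⟩ := b3g_A L
  have hℓ : (0 : ℝ) ≤ M.len d := Nat.cast_nonneg _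
  set ε₀ : ℝ := min 1 (c₀ / (N * (M.len d + 1))) with hε
  have hε0 : 0 < ε₀ := lt_min one_pos (by positivity)
  have hε1 : ε₀ ≤ 1 := min_le_left _ _
  have hε2 : N * ε₀ * M.len d ≤ c₀ := by
    have h1 : ε₀ ≤ c₀ / (N * (M.len d + 1)) := min_le_right _ _
    rw [le_div_iff₀ (by positivity)] at h1
    have h2 : 0 ≤ ε₀ * N := by positivity
    nlinarith
  set c : ℝ := 2 * N * Λ + 2 * N * A * Λ + 1 with hcdef
  have hc1 : 1 ≤ c := by
    have : 0 ≤ 2 * N * Λ + 2 * N * A * Λ := by positivity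
    linarith
  have hNΛ : 1 ≤ N * Λ := one_le_mul_of_one_le_of_one_le hN hΛ
  refine ⟨ε₀, B₀ * (N * Λ + c + Λ), hε0, one_le_mul_of_one_le_of_one_le hB₀ (by linarith), ?_⟩
  intro f B H hB hH hP hI R hR q X hX hXn
  obtain ⟨l, hl, hlen, hprod, hpre⟩ := hw R hR X hX hXn
  obtain ⟨g1, g2⟩ := b3g_log hΛ hR
  have hΛR : 1 ≤ Λ * R := one_le_mul_of_one_le_of_one_le hΛ hR
  have hlog0 : 0 ≤ Real.log (1 + Λ * R) := Real.log_nonneg (by linarith)
  have hHl : 0 ≤ H * Real.log (1 + Λ * R) := mul_nonneg hH hlog0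
  set r : ℝ := N * (H * Real.log (1 + Λ * R)) + N * B + c with hr
  have hNH : H * Real.log (1 + Λ * R) ≤ N * (H * Real.log (1 + Λ * R)) := le_mul_of_one_le_left hHl hN
  have hNB : 0 ≤ N * B := by positivity
  have hr1 : 1 ≤ r := by linarith
  have key := hq f.φ (M.chi d') q l r f.lφ hd.reg' hl hr1 ?_ ?_
  · rw [hprod] at key
    refine key.mono ?_
    have e1 : Real.log (1 + l.length) ≤ Real.log (1 + Λ * R) := Real.log_le_log (by positivity) (by linarith)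
    set ℓ := Real.log (2 + R) with hℓdef
    have e2 : H * Real.log (1 + Λ * R) ≤ H * (Λ * ℓ) := mul_le_mul_of_nonneg_left g2 hH
    have e3 : N * (H * Real.log (1 + Λ * R)) ≤ N * (H * (Λ * ℓ)) := mul_le_mul_of_nonneg_left e2 (by linarith)
    have e4 : N * B ≤ N * Λ * B * ℓ := by
      have : N * B * 1 ≤ N * B * (Λ * ℓ) := mul_le_mul_of_nonneg_left (one_le_mul_of_one_le_of_one_le hΛ g1) hNB
      linarith
    have e5 : c ≤ c * ℓ := le_mul_of_one_le_right (by linarith) g1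
    have e6 : r + Real.log (1 + l.length) ≤ (N * Λ + c + Λ) * (H + B + 1) * ℓ := by
      have p1 : 0 ≤ (c + Λ) * (H + B) * ℓ := by positivity
      have p2 : 0 ≤ N * Λ * ℓ := by positivity
      have : (N * Λ + c + Λ) * (H + B + 1) * ℓ = N * (H * (Λ * ℓ)) + N * Λ * B * ℓ + c * ℓ + Λ * ℓ
        + ((c + Λ) * (H + B) * ℓ + N * Λ * ℓ) := by ring
      linarith
    calc B₀ * (r + Real.log (1 + l.length)) ≤ B₀ * ((N * Λ + c + Λ) * (H + B + 1) * ℓ) :=
          mul_le_mul_of_nonneg_left e6 (by linarith)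
      _ = _ := by ring
  · intro l' hl' i hi
    obtain ⟨Y, hY, hYn, s, hs, s', hs', j, hj, e⟩ := hpre l' hl'
    have e' : l'.prod = M.exp Y * (s * d⁻¹ ^ j * s') := by rw [e]; simp only [mul_assoc]
    set u := s * d⁻¹ ^ j * s' with hu
    have hul : (M.len u : ℝ) ≤ Λ + j * M.len d + Λ := M.mul_mem_ballR (M.mul_mem_ballR hs (M.b3g_pow d j)) hs'
    have a1 := hI q (Λ * R) hΛR Y hY hYn
    have a2 : ‖M.cc f.φ u (q * M.exp Y) - L *ᵥ M.chi u‖ ≤ ε₀ * M.len u + B := hP (q * M.exp Y) u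
    have a3 : L *ᵥ M.chi u = L *ᵥ (M.chi s + M.chi s') - (j : ℝ) • (L *ᵥ M.chi d) := by
      rw [hu, M.chi_mul, M.chi_mul, M.chi_pow, M.chi_inv, ← Matrix.mulVec_smul, ← Matrix.mulVec_sub]
      congr 1
      rw [smul_neg]; abel
    have a4 : ‖M.chi s + M.chi s'‖ ≤ 2 * Λ := by
      have b1 := (M.norm_chi_le s).trans hs
      have b2 := (M.norm_chi_le s').trans hs'
      have b3 := norm_add_le (M.chi s) (M.chi s')
      linarith
    have a5 : ‖L *ᵥ (M.chi s + M.chi s')‖ ≤ A * (2 * Λ) := (hAb _).trans (mul_le_mul_of_nonneg_left a4 hA)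
    have hN0 : 0 ≤ N := by linarith
    have d1 := (hNb i _).trans (mul_le_mul_of_nonneg_left a1 hN0)
    have d2 := (hNb i _).trans (mul_le_mul_of_nonneg_left a2 hN0)
    have d3 := (hNb i _).trans (mul_le_mul_of_nonneg_left a5 hN0)
    have d4 : (j : ℝ) * c₀ ≤ j * (M.wt i ⬝ᵥ (L *ᵥ M.chi d)) := mul_le_mul_of_nonneg_left (hc i hi) (Nat.cast_nonneg _)
    have d5 : N * (ε₀ * M.len u) ≤ 2 * N * Λ + j * c₀ := by
      have b1 : N * ε₀ * M.len u ≤ N * ε₀ * (Λ + j * M.len d + Λ) := mul_le_mul_of_nonneg_left hul (by positivity)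
      have b2 : (j : ℝ) * (N * ε₀ * M.len d) ≤ j * c₀ := mul_le_mul_of_nonneg_left hε2 (Nat.cast_nonneg _)
      have b3 : N * Λ * ε₀ ≤ N * Λ * 1 := mul_le_mul_of_nonneg_left hε1 (by linarith)
      nlinarith
    rw [e', M.cc_mul, dotProduct_add]
    rw [dotProduct_sub, a3, dotProduct_sub, dotProduct_smul, smul_eq_mul] at d2
    nlinarith
  · rw [hprod]
    have a1 := hI q R hR X ((M.gi_mI _).le hX) hXn
    have a2 : Real.log (1 + R) ≤ Real.log (1 + Λ * R) := Real.log_le_log (by linarith) (by nlinarith)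
    have a3 := mul_le_mul_of_nonneg_left a2 hH
    linarith

end Model

end Crest.Agent.R182
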