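import Crest.Agent.R182.B3.Gen
import Crest.Agent.R182.B3.G1
import Crest.Agent.R182.B3.CH

/-! R182/B3/Close: the comparison in both directions (owner helper65; statements frozen, tell helper65 if one is false). -/

set_option autoImplicit false
set_option linter.unusedVariables false
set_option linter.unusedSectionVars false
open Set Filter Topology MeasureTheory ProbabilityTheory Matrix Crest.GroupTheory
open scoped Pointwise commutatorElement ENNReal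

noncomputable section
namespace Crest.Agent.R182

theorem b3cl_log {n : ℝ} (hn : 0 ≤ n) : Real.log (2 + (n + 1)) ≤ 2 * Real.log (2 + n) := by
  have h : Real.log (2 + (n + 1)) ≤ Real.log ((2 + n) ^ 2) := Real.log_le_log (by linarith) (by nlinarith)
  rw [Real.log_pow] at h
  exact_mod_cast h

namespace Model
variable {h k : ℕ} (M : Model h k)

/-- one direction of the comparison from `G1` on all scales -/
theorem b3cl_one (K : ℝ) {U U' : Submodule ℝ (V h)} (hU : M.GI U) (hU' : M.GI U') (a : ℝ) (ha : 0 ≤ a) : ∃ B' : ℝ, 0 ≤ B' ∧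
    ∀ f : M.QP K, (∀ R : ℝ, 1 ≤ R → ∀ q, ∀ X ∈ U, ‖X‖ ≤ Real.exp R → M.G1 f.φ U' (a * Real.log (2 + R)) q (M.exp X)) →
      (∀ R : ℝ, 1 ≤ R → ∀ q, ∀ X ∈ U', ‖X‖ ≤ Real.exp R → M.G1 f.ψ U (a * Real.log (2 + R)) q (M.exp X)) →
        ∀ q g : M.G, M.rb U ⬝ᵥ M.chi g ≤ M.rb U' ⬝ᵥ M.cc f.φ g q + B' * Real.log (2 + M.len g) := by
  obtain ⟨B₀, hB₀, hcmp⟩ := M.cmp K hU hU'
  obtain ⟨C, hC, hch⟩ := M.ch_of_g1
  have hC' : 1 ≤ C * (B₀ ^ 2 + 1) := by nlinarith [sq_nonneg B₀]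
  obtain ⟨b, hb, hfix⟩ := exists_fix ha hC'
  refine ⟨2 * B₀ * b, by positivity, fun f h1 h2 q g => ?_⟩
  have hn : (0 : ℝ) ≤ M.len g := Nat.cast_nonneg _
  obtain ⟨r₀, hr₀⟩ : ∃ r₀ : ℝ, r₀ = M.len g + 1 := ⟨_, rfl⟩
  have h01 : 1 ≤ r₀ := by linarith
  have hl : 1 ≤ Real.log (2 + r₀) := (b3g_log le_rfl h01).1
  obtain ⟨r₁, hr₁⟩ : ∃ r₁ : ℝ, r₁ = b * Real.log (2 + r₀) := ⟨_, rfl⟩
  have h11 : 1 ≤ r₁ := by rw [hr₁]; nlinarith
  have hr1 : 1 ≤ B₀ * (r₀ + r₁) := by nlinarith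
  have hrR : B₀ * (r₀ + r₁) ≤ B₀ * (B₀ * (r₀ + r₁)) := by nlinarith
  have hS1 : 1 ≤ C * (B₀ * (B₀ * (r₀ + r₁)) + r₀) := by nlinarith
  have hS : C * (B₀ * (B₀ * (r₀ + r₁)) + r₀) ≤ C * (B₀ ^ 2 + 1) * (r₀ + r₁) := by
    rw [mul_assoc]
    exact mul_le_mul_of_nonneg_left (by nlinarith) (by linarith)
  have hle : a * Real.log (2 + C * (B₀ * (B₀ * (r₀ + r₁)) + r₀)) ≤ r₁ := by
    have e := hfix r₀ h01
    rw [← hr₁] at e
    exact (mul_le_mul_of_nonneg_left (Real.log_le_log (by linarith) (by linarith)) ha).trans e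
  have hg : g ∈ M.ballR r₀ := by
    show (M.len g : ℝ) ≤ r₀
    linarith
  have hCH := hch f.φ f.ψ U U' (B₀ * (B₀ * (r₀ + r₁))) (B₀ * (r₀ + r₁)) r₀ r₁ hU hU' hr1 hrR (by linarith)
    (fun q X hX hn => (h1 _ hS1 q X hX hn).mono hle) (fun q X hX hn => (h2 _ hS1 q X hX hn).mono hle) q g hg
  have e := hcmp f _ _ r₀ r₁ q g h01 h11 le_rfl le_rfl hg hCH
  have e2 : r₁ ≤ b * (2 * Real.log (2 + M.len g)) := by
    rw [hr₁, hr₀]
    exact mul_le_mul_of_nonneg_left (b3cl_log hn) (by linarith)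
  have e3 := mul_le_mul_of_nonneg_left e2 (show 0 ≤ B₀ by linarith)
  linarith

/-- `U = mI (chi d)`, `U' = mI (chi d')` (`gi_mI`).  `ε₀ = min` of the `ε` of `hie'`, of `g1_all` for `hd` and of `g1_all` for `hd.symm` (`Dir.symm`, `L⁻¹ ∈ W1`);
`exists_both`; `hie'` and `g1_all` for `f` and for `f.symm` (`f.symm.φ = f.ψ`), `Prof.mono`.  `B₀` from `cmp K`, `C` from `ch_of_g1`;
`r₀ = len g + 1`, `r₁ = b log (2 + r₀)`, `r = B₀ (r₀ + r₁)`, `R = B₀ r`; `C (R + r₀) ≤ C (B₀ ^ 2 + 1) (r₀ + r₁)`, `b` from `exists_fix` with `a` the maximum of the two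
`C' (H + B₁ + 1)`, `G1.mono`.  `cmp` for `(q, g)` and `(q * g, g⁻¹)` (`inv_mem_ballR`, `cc_inv`, `chi_inv`); `log (3 + n) ≤ 2 log (2 + n)`. -/
theorem rb_close (K : ℝ) {L : Mat k} (hL : L ∈ M.W1) {d d' : M.G} (hd : M.Dir L d d') : ∃ ε : ℝ, 0 < ε ∧ ∀ B : ℝ, ∃ B' : ℝ,
    ∀ f : M.QP K, (M.Prof f.φ L fun n => ε * n + B) → ∀ q g : M.G,
      |M.rb (M.mI (M.chi d')) ⬝ᵥ M.cc f.φ g q - M.rb (M.mI (M.chi d)) ⬝ᵥ M.chi g| ≤ B' * Real.log (2 + M.len g) := by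
  obtain ⟨ε₁, hε₁, hH⟩ := M.hie' K
  obtain ⟨ε₂, C₂, hε₂, hC₂, hG₂⟩ := M.g1_all K hd
  obtain ⟨ε₃, C₃, hε₃, hC₃, hG₃⟩ := M.g1_all K (hd.symm hL.1)
  obtain ⟨ε, hε, hb⟩ := M.exists_both K (ε₀ := min ε₁ (min ε₂ ε₃)) (lt_min hε₁ (lt_min hε₂ hε₃))
  refine ⟨ε, hε, fun B => ?_⟩
  obtain ⟨B₁, hB₁, hP⟩ := hb B
  obtain ⟨H, hH0, hH1⟩ := hH B₁
  have ha : 0 ≤ (C₂ + C₃) * (H + B₁ + 1) := by positivity
  obtain ⟨B', hB', hone⟩ := M.b3cl_one K (M.gi_mI (M.chi d)) (M.gi_mI (M.chi d')) _ ha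
  refine ⟨B', fun f hf q g => ?_⟩
  obtain ⟨p1, p2⟩ := hP f L hL hf
  have hφ : M.Hie f.φ H := hH1 f L hL (p1.mono (min_le_left _ _) le_rfl)
  have hψ : M.Hie f.symm.φ H := hH1 f.symm L⁻¹ (M.inv_mem_W1 hL) (p2.mono (min_le_left _ _) le_rfl)
  have key := hone f
    (fun R hR q X hX hn => (hG₂ f B₁ H hB₁ hH0 (p1.mono ((min_le_right _ _).trans (min_le_left _ _)) le_rfl) hφ R hR q X hX hn).mono
      (mul_le_mul_of_nonneg_right (mul_le_mul_of_nonneg_right (by linarith) (by linarith)) (by linarith [(b3g_log le_rfl hR).1])))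
    (fun R hR q X hX hn => (hG₃ f.symm B₁ H hB₁ hH0 (p2.mono ((min_le_right _ _).trans (min_le_right _ _)) le_rfl) hψ R hR q X hX hn).mono
      (mul_le_mul_of_nonneg_right (mul_le_mul_of_nonneg_right (by linarith) (by linarith)) (by linarith [(b3g_log le_rfl hR).1])))
  have e1 := key q g
  have e2 := key (q * g) g⁻¹
  rw [M.cc_inv, M.chi_inv, M.len_inv, dotProduct_neg, dotProduct_neg] at e2
  rw [abs_le]
  constructor <;> linarith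

end Model

end Crest.Agent.R182
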