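import Crest.Agent.R182.B3.Base

/-! R182/B3/Dec: changing the base point by an element of `exp (mI v)` (owner helper65; statements frozen, tell helper65 if one is false). -/

set_option autoImplicit false
set_option linter.unusedVariables false
set_option linter.unusedSectionVars false
open Set Filter Topology MeasureTheory ProbabilityTheory Matrix Crest.GroupTheory
open scoped Pointwise commutatorElement ENNReal

noncomputable section
namespace Crest.Agent.R182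

namespace Model
variable {h k : ℕ} (M : Model h k)

/-- `exists_pm`: `l.prod = exp Y * exp Z₀ * c`, `c = lc.prod`; `y = exp Y` (`npos v ≤ E`, `len_exp_E` with
`r' = log B + D log (1 + length) + D r + 1`).  `m = (y * c)⁻¹ * (exp X)⁻¹ * l.prod = c⁻¹ (y⁻¹ (exp X)⁻¹ y) c * c⁻¹ exp Z₀ c` lies in `expSub (mI v)`
(`conj_mem_expSub`, `gi_mI`), so `m = exp Z` (`mem_expSub`); `len m ≤ len c + len y + len (exp X) + len l.prod` (`Wrd.len_le`, `WrdC.wrd`, `len_exp_E`),
`log (1 + n) ≤ n`, `exists_norm_lgm_le`, `lgm_exp`. -/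
theorem exists_decomp : ∃ C : ℝ, 1 ≤ C ∧ ∀ v, M.RegV v → ∀ (l : List M.G) (r ρ : ℝ), 0 ≤ r → 1 ≤ ρ → M.Wrd l →
    (∀ l', l' <+: l → ∀ j, 0 < M.wt j ⬝ᵥ v → M.wt j ⬝ᵥ M.chi l'.prod ≤ r) → ∀ X ∈ M.mI v, ‖X‖ ≤ Real.exp ρ →
      ∃ (y : M.G) (lc : List M.G), ∃ Z ∈ M.mI v, (M.len y : ℝ) ≤ C * (Real.log (1 + l.length) + r + 1) ∧ M.Wrd lc ∧
        lc.length = l.length ∧ (∀ i, M.chi (lc.take i).prod = M.chi (l.take i).prod) ∧
        ‖Z‖ ≤ Real.exp (C * (l.length + ρ + r)) ∧ (M.exp X)⁻¹ * l.prod = y * lc.prod * M.exp Z := by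
  obtain ⟨B, D, hB, hpm⟩ := M.exists_pm
  obtain ⟨Λ, hΛ, hE⟩ := M.len_exp_E
  obtain ⟨B₀, hB₀, hlg⟩ := M.exists_norm_lgm_le
  have hlB := Real.log_nonneg hB
  set A : ℝ := Real.log B + D + 1 with hA
  have hD : (0 : ℝ) ≤ D := Nat.cast_nonneg D
  have hA1 : 1 ≤ A := by linarith
  have hΛA : 0 ≤ Λ * A := by positivity
  have hC0 : 0 ≤ B₀ * (2 + Λ * A + Λ) := by positivity
  refine ⟨(B₀ + 1) * (2 + Λ * A + Λ), by linarith, fun v hv l r ρ hr hρ hl hp X hX hXn => ?_⟩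
  obtain ⟨Y, hY, Z₀, hZ₀, lc, h1, h2, h3, h4, h5⟩ := hpm v hv l r hr hl hp
  have hn : (0 : ℝ) ≤ l.length := Nat.cast_nonneg _
  have hL : 0 ≤ Real.log (1 + l.length) := Real.log_nonneg (by linarith)
  have hL' : Real.log (1 + l.length) ≤ l.length := by
    linarith [Real.log_le_sub_one_of_pos (by linarith : (0 : ℝ) < 1 + l.length)]
  have hYE : Y ∈ M.E := (iSup_le fun α : {α : Fin k → ℝ // 0 < α ⬝ᵥ v} => M.W_le_E fun h0 => by
    have := α.2
    rw [h0, zero_dotProduct] at this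
    exact lt_irrefl _ this : M.npos v ≤ M.E) hY
  have hy : (M.len (M.exp Y) : ℝ) ≤ Λ * (A * (Real.log (1 + l.length) + r + 1)) := by
    refine hE _ (one_le_mul_of_one_le_of_one_le hA1 (by linarith)) Y hYE (h4.trans ?_)
    rw [← Real.exp_log (by linarith : 0 < B), ← Real.exp_log (by linarith : (0 : ℝ) < 1 + l.length), ← Real.exp_nat_mul,
      ← Real.exp_add, ← Real.exp_add, Real.exp_log (by linarith : (0 : ℝ) < 1 + l.length)]
    refine Real.exp_le_exp.2 ?_
    rw [hA]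
    nlinarith [mul_nonneg hlB hL, mul_nonneg hlB hr]
  have gi := M.gi_mI v
  have hs := gi.idl.isSub
  have hm : (M.exp Y * lc.prod)⁻¹ * ((M.exp X)⁻¹ * l.prod) ∈ M.expSub (M.mI v) := by
    have a1 := M.conj_mem_expSub hs (gi.Ad (M.exp Y * lc.prod)⁻¹)
      ((M.expSub _).inv_mem ((M.exp_mem_expSub hs).2 hX))
    have a2 := M.conj_mem_expSub hs (gi.Ad lc.prod⁻¹) ((M.exp_mem_expSub hs).2 hZ₀)
    convert (M.expSub _).mul_mem a1 a2 using 1
    rw [h5]
    group
  obtain ⟨Z, hZ, e⟩ := (M.mem_expSub hs).1 hm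
  refine ⟨M.exp Y, lc, Z, hZ, hy.trans ?_, h1.wrd, h2, h3, ?_, by rw [e, mul_inv_cancel_left]⟩
  · rw [← mul_assoc]
    exact mul_le_mul_of_nonneg_right (by linarith) (by linarith)
  · have b1 := hlg (M.exp Z)
    rw [M.lgm_exp] at b1
    refine b1.trans (Real.exp_le_exp.2 ?_)
    have b2 : M.len (M.exp Z) ≤ M.len (M.exp Y) + l.length + (M.len (M.exp X) + l.length) := by
      rw [e]
      refine (M.len_mul _ _).trans (add_le_add ?_ ((M.len_mul _ _).trans (add_le_add (M.len_inv _).le hl.len_le)))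
      rw [M.len_inv]
      exact (M.len_mul _ _).trans (add_le_add le_rfl (h1.wrd.len_le.trans h2.le))
    have b3 : (M.len (M.exp Z) : ℝ) ≤ M.len (M.exp Y) + l.length + (M.len (M.exp X) + l.length) := by exact_mod_cast b2
    have b4 : (M.len (M.exp X) : ℝ) ≤ Λ * ρ := hE ρ hρ X (gi.le hX) hXn
    have b5 : Λ * (A * (Real.log (1 + l.length) + r + 1)) ≤ Λ * A * (l.length + ρ + r) := by
      rw [← mul_assoc]
      exact mul_le_mul_of_nonneg_left (by linarith) hΛA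
    have b6 : Λ * ρ ≤ Λ * (l.length + ρ + r) := mul_le_mul_of_nonneg_left (by linarith) (by linarith)
    have b7 : (M.len (M.exp Z) : ℝ) ≤ (2 + Λ * A + Λ) * (l.length + ρ + r) := by linarith
    rw [mul_assoc]
    exact mul_le_mul (by linarith) b7 (Nat.cast_nonneg _) (by linarith)

end Model

end Crest.Agent.R182
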