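import Crest.Agent.R182.B3.Base

/-! R182/B3/End: the affine cocycle at the end points (owner helper65; statements frozen, tell helper65 if one is false). -/

set_option autoImplicit false
set_option linter.unusedVariables false
set_option linter.unusedSectionVars false
open Set Filter Topology MeasureTheory ProbabilityTheory Matrix Crest.GroupTheory
open scoped Pointwise commutatorElement ENNReal

noncomputable section
namespace Crest.Agent.R182

namespace Model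
variable {h k : ℕ} (M : Model h k)

/-- `(φ p)⁻¹ * y = ((φ p)⁻¹ * φ (p * l.prod)) * b` with `b = (φ (ψ y))⁻¹ * y ∈ ballR K` (`f.right`, `len_inv`); `Aff.bb_mul`, `Aff.norm_bb_image` with
`Λ = 1` (letters have length `≤ 1`, `apipolyb_len`), `norm_lam`, `cc_eq` and the hypothesis for the prefix `l`; `bb` is bounded on the compact
`ballR K` (`Aff.continuous_bb`, `isCompact_ballR`). -/
theorem Aff.bb_end {M : Model h k} {β : Fin k → ℝ} (A : M.Aff β) (K : ℝ) : ∃ C : ℝ, 1 ≤ C ∧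
    ∀ (f : M.QP K) (p y : M.G) (l : List M.G) (r : ℝ), M.Wrd l → p * l.prod = f.ψ y → M.Lw f.φ β p l r →
      ‖A.bb ((f.φ p)⁻¹ * y)‖ ≤ C * (l.length + 1) * Real.exp r := by
  by_cases hK : 0 ≤ K
  swap
  · exact ⟨1, le_rfl, fun f => absurd (zero_le_one.trans f.one_le) hK⟩
  obtain ⟨B, hB, H⟩ := A.norm_bb_image K 1 hK zero_le_one
  obtain ⟨C, hC⟩ := (M.isCompact_ballR K).exists_bound_of_continuousOn A.continuous_bb.continuousOn
  refine ⟨max B C, le_max_of_le_left hB, fun f p y l r hl hy hr => ?_⟩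
  have h1 := H f.φ p l r f.lφ (fun x hx => by
    have h2 := Wrd.len_le (M := M) (l := [x]) fun y hy => by rw [List.mem_singleton.1 hy]; exact hl x hx
    simp only [List.prod_cons, List.prod_nil, mul_one, List.length_singleton] at h2
    show (M.len x : ℝ) ≤ 1
    exact_mod_cast h2) hr
  have h2 : ‖A.bb ((f.φ (p * l.prod))⁻¹ * y)‖ ≤ max B C := by
    refine (hC _ ?_).trans (le_max_right _ _)
    show (M.len _ : ℝ) ≤ K
    rw [hy, ← M.len_inv, _root_.mul_inv_rev, inv_inv]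
    exact f.right y
  have h3 : ‖(A.lam ((f.φ p)⁻¹ * f.φ (p * l.prod)) : ℂ)‖ ≤ Real.exp r := by
    rw [A.norm_lam, ← M.cc_eq]
    exact Real.exp_le_exp.2 (hr l List.prefix_rfl)
  rw [show (f.φ p)⁻¹ * y = (f.φ p)⁻¹ * f.φ (p * l.prod) * ((f.φ (p * l.prod))⁻¹ * y) by simp [mul_assoc], A.bb_mul]
  refine (norm_add_le _ _).trans ?_
  rw [norm_mul]
  have h4 := mul_le_mul h3 h2 (norm_nonneg _) (Real.exp_pos r).le
  have h5 : B * l.length * Real.exp r ≤ max B C * l.length * Real.exp r := by gcongr; exact le_max_left _ _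
  linarith

/-- `a⁻¹ * y = (a⁻¹ * a') * (a'⁻¹ * y)`; `bb (exp X0 * c) = ℓ X0`, `bb c = 0` (`Aff.bb_mul`, `Aff.bb_exp`, `Aff.bb_C`); subtract; `norm_lam` -/
theorem Aff.lam_lower {M : Model h k} {β : Fin k → ℝ} (A : M.Aff β) (a a' : M.G) {c : M.G} (hc : c ∈ M.C) {P : ℝ}
    (h1 : ‖A.bb (a'⁻¹ * (a * (M.exp A.X0 * c)))‖ ≤ P) (h2 : ‖A.bb (a'⁻¹ * (a * (1 * c)))‖ ≤ P) :
    ‖A.ℓ A.X0‖ ≤ 2 * P * Real.exp (β ⬝ᵥ M.chi (a⁻¹ * a')) := by
  rw [← mul_assoc, A.bb_mul, A.bb_mul (M.exp _), A.bb_exp, A.bb_C hc, mul_zero, add_zero] at h1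
  rw [← mul_assoc, one_mul, A.bb_mul, A.bb_C hc, mul_zero, add_zero] at h2
  have h3 : ‖(A.lam (a'⁻¹ * a) : ℂ) * A.ℓ A.X0‖ ≤ 2 * P := by
    have := norm_sub_le (A.bb (a'⁻¹ * a) + A.lam (a'⁻¹ * a) * A.ℓ A.X0) (A.bb (a'⁻¹ * a))
    rw [add_sub_cancel_left] at this
    linarith
  have h4 : A.ℓ A.X0 = A.lam (a'⁻¹ * a) * A.ℓ A.X0 * A.lam (a⁻¹ * a') := by
    rw [mul_right_comm, ← Units.val_mul, ← map_mul, show a'⁻¹ * a * (a⁻¹ * a') = 1 by group, map_one, Units.val_one, one_mul]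
  rw [h4, norm_mul, A.norm_lam (a⁻¹ * a')]
  exact mul_le_mul_of_nonneg_right h3 (Real.exp_pos _).le

end Model

end Crest.Agent.R182
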