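import Crest.Agent.R182.B3.Base

/-! R182/B3/Low: paths whose image stays low (owner helper65; statements frozen, tell helper65 if one is false). -/

set_option autoImplicit false
set_option linter.unusedVariables false
set_option linter.unusedSectionVars false
open Set Filter Topology MeasureTheory ProbabilityTheory Matrix Crest.GroupTheory
open scoped Pointwise commutatorElement ENNReal

noncomputable section
namespace Crest.Agent.R182

namespace Model
variable {h k : ℕ} (M : Model h k)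

/-- a prefix of `l ++ l'` is a prefix of `l` or `l ++` a prefix of `l'` (see `bd_prefix` in B/Basic); `cc_mul` -/
theorem Lw.append {M : Model h k} {φ : M.G → M.G} {β : Fin k → ℝ} {p : M.G} {l l' : List M.G} {r r' : ℝ} (h1 : M.Lw φ β p l r)
    (h2 : M.Lw φ β (p * l.prod) l' r') (h3 : β ⬝ᵥ M.cc φ l.prod p + r' ≤ r) : M.Lw φ β p (l ++ l') r := by
  intro m hm
  rcases List.prefix_or_prefix_of_prefix hm (List.prefix_append l l') with h | ⟨t, rfl⟩
  · exact h1 m h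
  · have ht : t <+: l' := (List.prefix_append_right_inj l).1 hm
    rw [List.prod_append, M.cc_mul, dotProduct_add]
    linarith [h2 t ht]

/-- `exists_wrd`, `Wrd.of_prefix`, `Wrd.len_le`, `Lip.norm_cc`, `abs_dot_le` -/
theorem exists_short (K : ℝ) (β : Fin k → ℝ) : ∃ C : ℝ, 1 ≤ C ∧ ∀ (f : M.QP K) (p y : M.G),
    ∃ l, M.Wrd l ∧ l.length = M.len y ∧ l.prod = y ∧ M.Lw f.φ β p l (C * (M.len y + 1)) := by
  have hb := nm_nonneg β
  have hk : (0 : ℝ) ≤ k := Nat.cast_nonneg k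
  have h0 : 0 ≤ nm β * (k * |K|) := by positivity
  refine ⟨1 + nm β * (k * |K|), by linarith, fun f p y => ?_⟩
  obtain ⟨l, hl, hlen, hp⟩ := M.exists_wrd y
  refine ⟨l, hl, hlen, hp, fun m hm => ?_⟩
  have hK : 0 ≤ K := by linarith [f.one_le]
  have h1 : (M.len m.prod : ℝ) ≤ M.len y := by
    exact_mod_cast ((hl.of_prefix hm).len_le.trans hm.length_le).trans hlen.le
  have h2 : ‖M.cc f.φ m.prod p‖ ≤ K * (M.len y + 1) := by
    refine (f.lφ.norm_cc _ _).trans ?_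
    nlinarith [mul_le_mul_of_nonneg_left h1 hK]
  have h3 := (le_abs_self _).trans (abs_dot_le β (M.cc f.φ m.prod p))
  have h4 := mul_le_mul_of_nonneg_left (mul_le_mul_of_nonneg_left h2 hk) hb
  have h5 : (0 : ℝ) ≤ M.len y := Nat.cast_nonneg _
  rw [abs_of_nonneg hK]
  nlinarith

/-- The word of `exists_mword`.  A prefix `exp Y * s * d⁻¹ ^ j * s'` has length `≤ Λ R` (`Wrd.len_le`) and height `chi s - j • chi d + chi s'`, so
`β ⬝ L chi ≤ const` (`norm_chi_le`, `abs_dot_le` for `β ᵥ* L`, `dotProduct_mulVec`); `Prof` applied to the whole prefix. -/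
theorem exists_mlow {d : M.G} (hd : d ∈ M.C) (β : Fin k → ℝ) (L : Mat k) (hβ : 0 ≤ β ⬝ᵥ L *ᵥ M.chi d) : ∃ C : ℝ, 1 ≤ C ∧
    ∀ (φ : M.G → M.G) (ε B : ℝ), 0 ≤ ε → 0 ≤ B → (M.Prof φ L fun n => ε * n + B) → ∀ (p : M.G) (R : ℝ), 1 ≤ R →
      ∀ Z ∈ M.mI (M.chi d), ‖Z‖ ≤ Real.exp R →
        ∃ l, M.Wrd l ∧ (l.length : ℝ) ≤ C * R ∧ l.prod = M.exp Z ∧ M.Lw φ β p l (C * (ε * R + B + 1)) := by
  obtain ⟨Λ, hΛ, H⟩ := M.exists_mword hd
  have n1 := nm_nonneg β
  have n2 := nm_nonneg (β ᵥ* L)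
  have hk : (0 : ℝ) ≤ k := Nat.cast_nonneg k
  have p1 : 0 ≤ nm β * k * Λ := by positivity
  have p2 : 0 ≤ nm (β ᵥ* L) * k * Λ := by positivity
  refine ⟨Λ + nm β * k * Λ + 2 * (nm (β ᵥ* L) * k * Λ), by linarith, fun φ ε B hε hB hP p R hR Z hZ hZn => ?_⟩
  obtain ⟨l, hl, hlen, hprod, hpre⟩ := H R hR Z hZ hZn
  refine ⟨l, hl, hlen.trans (by nlinarith), hprod, fun l' hl' => ?_⟩
  obtain ⟨Y, -, -, s, hs, s', hs', j, -, e⟩ := hpre l' hl'
  have a1 : (M.len l'.prod : ℝ) ≤ Λ * R := by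
    have b1 : M.len l'.prod ≤ l.length := (hl.of_prefix hl').len_le.trans hl'.length_le
    exact (Nat.cast_le.2 b1).trans hlen
  have a2 : M.chi l'.prod = M.chi s + M.chi s' - (j : ℝ) • M.chi d := by
    rw [e, M.chi_mul, M.chi_mul, M.chi_mul, M.chi_exp, M.chi_pow, M.chi_inv, smul_neg]
    abel
  have a3 : ∀ t ∈ M.ballR Λ, β ⬝ᵥ L *ᵥ M.chi t ≤ nm (β ᵥ* L) * k * Λ := fun t ht => by
    rw [dotProduct_mulVec]
    refine (le_abs_self _).trans ((abs_dot_le _ _).trans ?_)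
    rw [mul_assoc]
    gcongr
    exact (M.norm_chi_le t).trans ht
  have a4 : β ⬝ᵥ L *ᵥ M.chi l'.prod ≤ 2 * (nm (β ᵥ* L) * k * Λ) := by
    rw [a2, mulVec_sub, mulVec_add, mulVec_smul, dotProduct_sub, dotProduct_add, dotProduct_smul, smul_eq_mul]
    have := mul_nonneg (Nat.cast_nonneg (α := ℝ) j) hβ
    linarith [a3 s hs, a3 s' hs']
  have a5 : β ⬝ᵥ (M.cc φ l'.prod p - L *ᵥ M.chi l'.prod) ≤ nm β * k * Λ * (ε * R + B) := by
    refine (le_abs_self _).trans ((abs_dot_le _ _).trans ?_)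
    have b1 : ‖M.cc φ l'.prod p - L *ᵥ M.chi l'.prod‖ ≤ Λ * (ε * R + B) := by
      refine (hP p _).trans ?_
      have := mul_le_mul_of_nonneg_left a1 hε
      nlinarith
    rw [mul_assoc, mul_assoc]
    gcongr
  rw [dotProduct_sub] at a5
  have a6 : 0 ≤ ε * R + B := by positivity
  nlinarith [mul_nonneg p2 a6, mul_nonneg (by linarith : 0 ≤ Λ) a6]

end Model

end Crest.Agent.R182
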