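import Crest.Agent.R182.B3.Down
import Crest.Agent.R182.B3.Dec
import Crest.Agent.R182.B3.Low
import Crest.Agent.R182.B3.End

/-! R182/B3/Core: the polynomial bound for the affine cocycle (owner helper65; statements frozen, tell helper65 if one is false). -/

set_option autoImplicit false
set_option linter.unusedVariables false
set_option linter.unusedSectionVars false
open Set Filter Topology MeasureTheory ProbabilityTheory Matrix Crest.GroupTheory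
open scoped Pointwise commutatorElement ENNReal

noncomputable section
namespace Crest.Agent.R182

namespace Model
variable {h k : ℕ} (M : Model h k)

theorem b3c_w (β : Fin k → ℝ) (L : Mat k) : ∃ w : ℝ, 1 ≤ w ∧ (∀ j a, |M.wt j ⬝ᵥ a| ≤ w * ‖a‖) ∧ (∀ a, |β ⬝ᵥ a| ≤ w * ‖a‖) ∧
    ∀ a, |β ⬝ᵥ L *ᵥ a| ≤ w * ‖a‖ := by
  have h1 : 0 ≤ ∑ j, nm (M.wt j) := Finset.sum_nonneg fun j _ => nm_nonneg _
  have h2 := nm_nonneg β
  have h3 := nm_nonneg (β ᵥ* L)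
  have hk : (0 : ℝ) ≤ k := Nat.cast_nonneg k
  have key : ∀ γ : Fin k → ℝ, nm γ ≤ ∑ j, nm (M.wt j) + nm β + nm (β ᵥ* L) → ∀ a,
      |γ ⬝ᵥ a| ≤ (1 + (∑ j, nm (M.wt j) + nm β + nm (β ᵥ* L)) * k) * ‖a‖ := fun γ hγ a => by
    have := abs_dot_le γ a
    have h4 := mul_le_mul_of_nonneg_right hγ (mul_nonneg hk (norm_nonneg a))
    nlinarith [norm_nonneg a]
  refine ⟨1 + (∑ j, nm (M.wt j) + nm β + nm (β ᵥ* L)) * k, le_add_of_nonneg_right (by positivity), fun j => key _ ?_, key _ (by linarith),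
    fun a => ?_⟩
  · have := Finset.single_le_sum (f := fun j => nm (M.wt j)) (fun j _ => nm_nonneg _) (Finset.mem_univ j)
    linarith
  · rw [dotProduct_mulVec]
    exact key _ (by linarith) a

theorem b3c_c0 {u v : Fin k → ℝ} (hs : M.Sim u v) : ∃ c : ℝ, 0 < c ∧ ∀ j, 0 < M.wt j ⬝ᵥ v → c ≤ M.wt j ⬝ᵥ u := by
  classical
  have hf : ((fun j => M.wt j ⬝ᵥ u) '' {j | 0 < M.wt j ⬝ᵥ v}).Finite := (Set.toFinite _).image _
  obtain ⟨c, hc, h⟩ : ∃ c : ℝ, 0 < c ∧ ∀ x ∈ (fun j => M.wt j ⬝ᵥ u) '' {j | 0 < M.wt j ⬝ᵥ v}, c ≤ x := by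
    rcases Set.eq_empty_or_nonempty ((fun j => M.wt j ⬝ᵥ u) '' {j | 0 < M.wt j ⬝ᵥ v}) with h0 | h0
    · exact ⟨1, one_pos, by simp [h0]⟩
    · obtain ⟨x, ⟨j, hj, rfl⟩, hx⟩ := Set.exists_min_image _ id hf h0
      exact ⟨_, (hs j).1.2 hj, hx⟩
  exact ⟨c, hc, fun j hj => h _ ⟨j, hj, rfl⟩⟩

theorem b3c_fin {a₁ a₂ r ρ x y : ℝ} (hρ : 1 ≤ ρ) (h2 : 0 ≤ a₂) (hr : 0 ≤ r) (hx : x ≤ a₂ * (1 + ρ))
    (hy : y ≤ a₁ * Real.log (1 + ρ) + r) : x * Real.exp y ≤ Real.exp ((a₁ + 2 * r + 2 * a₂ + 1) * Real.log (1 + ρ)) := by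
  have hT : 1 ≤ 2 * Real.log (1 + ρ) := by
    have := apiloga_two (x := ρ - 1) (by linarith)
    rwa [show 2 + (ρ - 1) = 1 + ρ by ring] at this
  have e1 : Real.exp (Real.log (1 + ρ)) = 1 + ρ := Real.exp_log (by linarith)
  have e2 : a₂ ≤ Real.exp (2 * a₂ * Real.log (1 + ρ)) := by
    have := Real.add_one_le_exp (2 * a₂ * Real.log (1 + ρ))
    nlinarith
  have e3 : Real.exp y ≤ Real.exp ((a₁ + 2 * r) * Real.log (1 + ρ)) := Real.exp_le_exp.2 (by nlinarith)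
  calc x * Real.exp y ≤ (Real.exp (2 * a₂ * Real.log (1 + ρ)) * Real.exp (Real.log (1 + ρ))) *
        Real.exp ((a₁ + 2 * r) * Real.log (1 + ρ)) := by
        refine mul_le_mul (hx.trans ?_) e3 (Real.exp_pos _).le (by positivity)
        rw [e1]
        exact mul_le_mul_of_nonneg_right e2 (by linarith)
    _ = _ := by rw [← Real.exp_add, ← Real.exp_add]; congr 1; ring

/-- the height of the image of a point of the descending ray -/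
theorem b3c_ray {φ : M.G → M.G} {β : Fin k → ℝ} {L : Mat k} (hL : L.det ≠ 0) {ε B w C j : ℝ} (hε : 0 ≤ ε) (hw : 0 ≤ w)
    (hw1 : ∀ a, |β ⬝ᵥ a| ≤ w * ‖a‖) (hw2 : ∀ a, |β ⬝ᵥ L *ᵥ a| ≤ w * ‖a‖) (hP : M.Prof φ L fun n => ε * n + B) (p g : M.G)
    (v : Fin k → ℝ) (hg : (M.len g : ℝ) ≤ C * (j + 1)) (hχ : ‖M.chi g + j • L⁻¹ *ᵥ v‖ ≤ C * (ε * j + B + 1)) :
    β ⬝ᵥ M.cc φ g p ≤ w * (ε * (C * (j + 1)) + B) + w * (C * (ε * j + B + 1)) - j * (β ⬝ᵥ v) := by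
  have e : β ⬝ᵥ M.cc φ g p = β ⬝ᵥ (M.cc φ g p - L *ᵥ M.chi g) + β ⬝ᵥ L *ᵥ (M.chi g + j • L⁻¹ *ᵥ v) - j * (β ⬝ᵥ v) := by
    rw [mulVec_add, mulVec_smul, mulVec_mulVec, mul_nonsing_inv _ (Ne.isUnit hL), one_mulVec, dotProduct_sub, dotProduct_add,
      dotProduct_smul, smul_eq_mul]
    ring
  have h1 := (le_abs_self _).trans (hw1 (M.cc φ g p - L *ᵥ M.chi g))
  have h2 := (le_abs_self _).trans (hw2 (M.chi g + j • L⁻¹ *ᵥ v))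
  have h3 : ‖M.cc φ g p - L *ᵥ M.chi g‖ ≤ ε * (C * (j + 1)) + B :=
    (hP p g).trans (by have := mul_le_mul_of_nonneg_left hg hε; dsimp only; linarith)
  have h4 := mul_le_mul_of_nonneg_left h3 hw
  have h5 := mul_le_mul_of_nonneg_left hχ hw
  rw [e]; linarith

theorem hie_bb (K : ℝ) {β : Fin k → ℝ} (A : M.Aff β) {L : Mat k} (hL : L.det ≠ 0) {d d' : M.G} (hd : M.Dir L d d')
    (hβ : 0 < β ⬝ᵥ M.chi d') (hβ' : 0 ≤ β ⬝ᵥ L *ᵥ M.chi d) : ∃ ε : ℝ, 0 < ε ∧ ∀ B : ℝ, ∃ B' : ℝ, ∀ f : M.QP K,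
      (M.Prof f.φ L fun n => ε * n + B) → (M.Prof f.ψ L⁻¹ fun n => ε * n + B) → ∀ (q : M.G) (ρ : ℝ), 1 ≤ ρ →
        ∀ X ∈ M.mI (M.chi d), ‖X‖ ≤ Real.exp ρ → ∀ s ∈ M.ballR 1, M.chi s = 0 →
          ‖A.bb ((f.φ (q * M.exp X))⁻¹ * (f.φ q * (s * d'⁻¹ ^ ⌈ρ⌉₊)))‖ ≤ Real.exp (B' * Real.log (1 + ρ)) := by
  obtain ⟨C1, hC1, hdown⟩ := M.exists_down K L⁻¹ d'
  obtain ⟨C2, hC2, hdec⟩ := M.exists_decomp
  obtain ⟨C3, hC3, hshort⟩ := M.exists_short K β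
  obtain ⟨C4, hC4, hmlow⟩ := M.exists_mlow hd.mem β L hβ'
  obtain ⟨C5, hC5, hend⟩ := A.bb_end K
  obtain ⟨w, hw, hw0, hw1, hw2⟩ := M.b3c_w β L
  obtain ⟨c₀, hc₀, hc⟩ := M.b3c_c0 hd.bwd
  have hS : 0 < 2 * w * C1 + C4 * C2 * (C1 + 1) := by positivity
  obtain ⟨ε, hε, hε1, hε2, hε3⟩ : ∃ ε : ℝ, 0 < ε ∧ ε ≤ 1 ∧ w * C1 * ε ≤ c₀ ∧
      (2 * w * C1 + C4 * C2 * (C1 + 1)) * ε ≤ β ⬝ᵥ M.chi d' := by
    refine ⟨min 1 (min (c₀ / (w * C1)) (β ⬝ᵥ M.chi d' / (2 * w * C1 + C4 * C2 * (C1 + 1)))), by positivity, min_le_left _ _, ?_, ?_⟩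
    · rw [mul_comm, ← le_div_iff₀ (by positivity)]
      exact (min_le_right _ _).trans (min_le_left _ _)
    · rw [mul_comm, ← le_div_iff₀ hS]
      exact (min_le_right _ _).trans (min_le_right _ _)
  refine ⟨ε, hε, fun B₀ => ?_⟩
  obtain ⟨B, hB, hBB⟩ : ∃ B : ℝ, 0 ≤ B ∧ B₀ ≤ B := ⟨max B₀ 0, le_max_right _ _, le_max_left _ _⟩
  obtain ⟨r₀, hr₀, hr₀'⟩ : ∃ r₀ : ℝ, r₀ = w * C1 * (B + 1) ∧ 0 ≤ r₀ := ⟨_, rfl, by positivity⟩
  obtain ⟨r₂, hr₂, hr₂'⟩ : ∃ r₂ : ℝ, r₂ = w * C1 + w * B + w * C1 * (B + 1) ∧ 0 ≤ r₂ := ⟨_, rfl, by positivity⟩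
  obtain ⟨r₃, hr₃, hr₃'⟩ : ∃ r₃ : ℝ, r₃ = C4 * C2 * (C1 + r₀) + C4 * (B + 1) ∧ 0 ≤ r₃ := ⟨_, rfl, by positivity⟩
  obtain ⟨a₁, ha₁⟩ : ∃ a₁ : ℝ, a₁ = C3 * C2 := ⟨_, rfl⟩
  obtain ⟨r₄, hr₄, hr₄'⟩ : ∃ r₄ : ℝ, r₄ = C3 * (C2 * (2 * C1 + r₀ + 1) + 1) ∧ 0 ≤ r₄ := ⟨_, rfl, by positivity⟩
  obtain ⟨a₂, ha₂, ha₂'⟩ : ∃ a₂ : ℝ, a₂ = C5 * (C2 * (2 * C1 + r₀ + 1) + 2 * C1 + C4 * (C2 * (2 * C1 + 1 + r₀)) + 1) ∧ 0 ≤ a₂ :=
    ⟨_, rfl, by positivity⟩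
  refine ⟨a₁ + 2 * (r₄ + (r₂ + r₃)) + 2 * a₂ + 1, fun f hφ hψ q ρ hρ X hX hXn s hs hs0 => ?_⟩
  replace hφ := hφ.mono le_rfl hBB
  replace hψ := hψ.mono le_rfl hBB
  obtain ⟨l, hl, hlp, hln, hpre, hlast⟩ := hdown f ε B hε.le hε1 hB hψ q s ⌈ρ⌉₊ hs hs0
  have hi1 : ρ ≤ (⌈ρ⌉₊ : ℝ) := Nat.le_ceil ρ
  have hi2 : (⌈ρ⌉₊ : ℝ) ≤ ρ + 1 := (Nat.ceil_lt_add_one (by linarith)).le
  generalize hi : (⌈ρ⌉₊ : ℝ) = i at hi1 hi2 hln hlast
  obtain ⟨y, lc, Z, hZ, hy, hlc, hlen, hχ, hZn, hprod⟩ := hdec _ hd.reg l r₀ ρ hr₀' hρ hl (fun l' hl' j hj => by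
    obtain ⟨t, -, ht⟩ := hpre l' hl'
    have e : M.wt j ⬝ᵥ M.chi l'.prod = M.wt j ⬝ᵥ (M.chi l'.prod + (t : ℝ) • L⁻¹ *ᵥ M.chi d') - t * (M.wt j ⬝ᵥ L⁻¹ *ᵥ M.chi d') := by
      rw [dotProduct_add, dotProduct_smul, smul_eq_mul]; ring
    have h1 := (le_abs_self _).trans (hw0 j (M.chi l'.prod + (t : ℝ) • L⁻¹ *ᵥ M.chi d'))
    have h2 := mul_le_mul_of_nonneg_left ht (zero_le_one.trans hw)
    have h3 := mul_le_mul_of_nonneg_left (hε2.trans (hc j hj)) (Nat.cast_nonneg (α := ℝ) t)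
    rw [e, hr₀]; linarith) X hX hXn
  have hn0 : (0 : ℝ) ≤ l.length := Nat.cast_nonneg _
  have hR : 1 ≤ C2 * (l.length + ρ + r₀) := one_le_mul_of_one_le_of_one_le hC2 (by linarith)
  obtain ⟨l₁, hl₁, hl₁n, hl₁p, hl₁w⟩ := hshort f (q * M.exp X) y
  obtain ⟨l₃, hl₃, hl₃n, hl₃p, hl₃w⟩ := hmlow f.φ ε B hε.le hB hφ (q * M.exp X * y * lc.prod) _ hR Z hZ hZn
  have hc2 : 2 * w * C1 * ε ≤ β ⬝ᵥ M.chi d' := by
    have : 0 ≤ C4 * C2 * (C1 + 1) * ε := by positivity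
    linarith
  have hwε : w * (ε * C1) ≤ w * C1 :=
    mul_le_mul_of_nonneg_left (mul_le_of_le_one_left (by linarith) hε1) (by linarith)
  have hlw : M.Lw f.φ β (q * M.exp X * y) lc (r₂ + r₃) := fun l' hl' => by
    have hle : l'.length ≤ l.length := hlen ▸ hl'.length_le
    obtain ⟨t, ht1, ht2⟩ := hpre (l.take l'.length) (List.take_prefix _ _)
    rw [List.length_take, min_eq_left hle] at ht1
    rw [← hχ, ← List.prefix_iff_eq_take.1 hl'] at ht2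
    have h1 := M.b3c_ray hL hε.le (zero_le_one.trans hw) hw1 hw2 hφ (q * M.exp X * y) l'.prod (M.chi d')
      ((Nat.cast_le.2 (hlc.of_prefix hl').len_le).trans ht1) ht2
    have h3 := mul_le_mul_of_nonneg_left hc2 (Nat.cast_nonneg (α := ℝ) t)
    rw [hr₂]; linarith
  have hbot : β ⬝ᵥ M.cc f.φ lc.prod (q * M.exp X * y) + C4 * (ε * (C2 * (l.length + ρ + r₀)) + B + 1) ≤ r₂ + r₃ := by
    have hχ' := hχ l.length
    rw [List.take_length, List.take_of_length_le hlen.le] at hχ'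
    rw [← hχ'] at hlast
    have h1 := M.b3c_ray hL hε.le (zero_le_one.trans hw) hw1 hw2 hφ (q * M.exp X * y) lc.prod (M.chi d')
      ((Nat.cast_le.2 (hlc.len_le.trans hlen.le)).trans hln) hlast
    have h3 := mul_le_mul_of_nonneg_left hε3 (show 0 ≤ i by linarith)
    have h4 : C4 * C2 * ε * (l.length + ρ + r₀) ≤ C4 * C2 * ε * ((C1 + 1) * i + (C1 + r₀)) :=
      mul_le_mul_of_nonneg_left (by linarith) (by positivity)
    have h5 : C4 * C2 * (C1 + r₀) * ε ≤ C4 * C2 * (C1 + r₀) := mul_le_of_le_one_right (by positivity) hε1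
    rw [hr₂, hr₃]; linarith
  have hlw2 := hlw.append hl₃w hbot
  have hall : M.Lw f.φ β (q * M.exp X) (l₁ ++ (lc ++ l₃)) (C3 * (M.len y + 1) + (r₂ + r₃)) :=
    Lw.append (fun l' hl' => (hl₁w l' hl').trans (le_add_of_nonneg_right (by positivity))) (hl₁p ▸ hlw2)
      (add_le_add_left (hl₁w l₁ List.prefix_rfl) _)
  have hfin := hend f (q * M.exp X) (f.φ q * (s * d'⁻¹ ^ ⌈ρ⌉₊)) _ _ (hl₁.append (hlc.append hl₃)) (by
    rw [List.prod_append, List.prod_append, hl₁p, hl₃p, ← mul_assoc y, ← hprod, ← hlp]; group) hall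
  have hn : (l.length : ℝ) ≤ 2 * C1 * (1 + ρ) := by
    have := mul_le_mul_of_nonneg_left (show i + 1 ≤ 2 * (1 + ρ) by linarith) (zero_le_one.trans hC1)
    linarith
  have hρ1 : r₀ ≤ r₀ * (1 + ρ) := le_mul_of_one_le_right hr₀' (by linarith)
  refine hfin.trans (b3c_fin hρ ha₂' (by positivity) ?_ ?_)
  · have h1 : Real.log (1 + l.length) ≤ l.length := by
      have := Real.log_le_sub_one_of_pos (show (0 : ℝ) < 1 + l.length by linarith)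
      linarith
    have h2 : (M.len y : ℝ) ≤ C2 * ((2 * C1 + r₀ + 1) * (1 + ρ)) :=
      hy.trans (mul_le_mul_of_nonneg_left (by linarith) (by linarith))
    have h3 : (l₃.length : ℝ) ≤ C4 * (C2 * ((2 * C1 + 1 + r₀) * (1 + ρ))) :=
      hl₃n.trans (mul_le_mul_of_nonneg_left (mul_le_mul_of_nonneg_left (by linarith) (by linarith)) (by linarith))
    rw [ha₂, mul_assoc]
    refine mul_le_mul_of_nonneg_left ?_ (by linarith)
    simp only [List.length_append, hl₁n, hlen, Nat.cast_add]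
    linarith
  · have h1 : Real.log (1 + l.length) ≤ 2 * C1 + Real.log (1 + ρ) := by
      have h2 : Real.log (1 + l.length) ≤ Real.log ((1 + 2 * C1) * (1 + ρ)) := Real.log_le_log (by linarith) (by linarith)
      rw [Real.log_mul (by positivity) (by positivity)] at h2
      have := Real.log_le_sub_one_of_pos (show (0 : ℝ) < 1 + 2 * C1 by linarith)
      linarith
    have h2 : (M.len y : ℝ) ≤ C2 * (2 * C1 + Real.log (1 + ρ) + r₀ + 1) :=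
      hy.trans (mul_le_mul_of_nonneg_left (by linarith) (by linarith))
    have h3 := mul_le_mul_of_nonneg_left h2 (zero_le_one.trans hC3)
    rw [ha₁, hr₄]; linarith

end Model

end Crest.Agent.R182
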