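import Crest.Agent.R182.B3.Core

/-! R182/B3/Dir: the one-sided estimate (owner helper65; statements frozen, tell helper65 if one is false). -/

set_option autoImplicit false
set_option linter.unusedVariables false
set_option linter.unusedSectionVars false
open Set Filter Topology MeasureTheory ProbabilityTheory Matrix Crest.GroupTheory
open scoped Pointwise commutatorElement ENNReal

noncomputable section
namespace Crest.Agent.R182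

namespace Model
variable {h k : ℕ} (M : Model h k)

/-- `L⁻¹ ∈ W1` (`inv_mem_W1`) gives `β ∈ R1`, `c > 0` with `α ᵥ* L⁻¹ = c • β`, so `α ⬝ᵥ L⁻¹ *ᵥ a = c * (β ⬝ᵥ a)` and `c * (β ⬝ᵥ L *ᵥ chi d) = α ⬝ᵥ chi d > 0`;
`d'` from `Dirs.dir`, `0 < β ⬝ᵥ chi d'` by `Dir.fwd` (`β = wt j`); `A` from `exists_Aff`; `hie_bb` for `s = exp X0` (`len_exp_le`, `X0_norm`, `chi_exp`) and
`s = 1`, `exists_both`; `Aff.lam_lower` with `a = φ q`, `a' = φ (q * exp X)`, `c = d'⁻¹ ^ ⌈ρ⌉₊`, `cc_eq`; take logarithms (`X0_ne`);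
`log 2 ≤ log (1 + ρ)` absorbs the constants. -/
theorem hie_dir (K : ℝ) {𝒟 : Finset M.G} (h𝒟 : M.Dirs 𝒟) {L : Mat k} (hL : L ∈ M.W1) {d : M.G} (hd : d ∈ 𝒟) {α : Fin k → ℝ}
    (hα : α ∈ M.R1) (hpos : 0 < α ⬝ᵥ M.chi d) : ∃ ε : ℝ, 0 < ε ∧ ∀ B : ℝ, ∃ B' : ℝ, ∀ f : M.QP K,
      (M.Prof f.φ L fun n => ε * n + B) → ∀ (q : M.G) (ρ : ℝ), 1 ≤ ρ → ∀ X ∈ M.mI (M.chi d), ‖X‖ ≤ Real.exp ρ →
        -(B' * Real.log (1 + ρ)) ≤ α ⬝ᵥ L⁻¹ *ᵥ M.cc f.φ (M.exp X) q := by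
  obtain ⟨β, hβ, c, hc, hcβ⟩ := (M.inv_mem_W1 hL).2.2 α hα
  have key : ∀ a, α ⬝ᵥ L⁻¹ *ᵥ a = c * (β ⬝ᵥ a) := fun a => by
    rw [Matrix.dotProduct_mulVec, hcβ, smul_dotProduct, smul_eq_mul]
  have h1 : 0 < β ⬝ᵥ L *ᵥ M.chi d := by
    have := key (L *ᵥ M.chi d)
    rw [Matrix.mulVec_mulVec, Matrix.nonsing_inv_mul _ (isUnit_iff_ne_zero.2 hL.1), Matrix.one_mulVec] at this
    exact (mul_pos_iff_of_pos_left hc).1 (this ▸ hpos)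
  obtain ⟨d', -, hdir⟩ := h𝒟.dir hd hL
  obtain ⟨A⟩ := M.exists_Aff hβ
  have h2 : 0 < β ⬝ᵥ M.chi d' := by
    obtain ⟨-, j, -, rfl⟩ := hβ
    exact (hdir.fwd j).1.1 h1
  obtain ⟨ε₀, hε₀, hbb⟩ := M.hie_bb K A hL.1 hdir h2 h1.le
  obtain ⟨ε, hε, hboth⟩ := M.exists_both K hε₀
  refine ⟨ε, hε, fun B => ?_⟩
  obtain ⟨B₁, -, hB₁⟩ := hboth B
  obtain ⟨B', hB'⟩ := hbb B₁
  have hl2 : 0 < Real.log 2 := Real.log_pos one_lt_two
  refine ⟨c * (B' + 1 + |Real.log ‖A.ℓ A.X0‖| / Real.log 2), fun f hP q ρ hρ X hX hn => ?_⟩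
  obtain ⟨p1, p2⟩ := hB₁ f L hL hP
  have hs : M.exp A.X0 ∈ M.ballR 1 := by
    have h3 := (M.len_exp_le A.X0).trans (Nat.ceil_le.2 (by exact_mod_cast A.X0_norm : ‖A.X0‖ ≤ ((1 : ℕ) : ℝ)))
    show (M.len (M.exp A.X0) : ℝ) ≤ 1
    exact_mod_cast h3
  have h3 := A.lam_lower (f.φ q) (f.φ (q * M.exp X)) (pow_mem (inv_mem hdir.mem') ⌈ρ⌉₊)
    (hB' f p1 p2 q ρ hρ X hX hn _ hs (M.chi_exp _)) (hB' f p1 p2 q ρ hρ X hX hn 1 (M.one_mem_ballR zero_le_one) M.chi_one)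
  rw [← M.cc_eq] at h3
  have h4 := Real.log_le_log (norm_pos_iff.2 A.X0_ne) h3
  rw [Real.log_mul (by positivity) (by positivity), Real.log_mul (by positivity) (by positivity), Real.log_exp, Real.log_exp] at h4
  have h5 : Real.log 2 ≤ Real.log (1 + ρ) := Real.log_le_log two_pos (by linarith)
  have h6 : |Real.log ‖A.ℓ A.X0‖| ≤ |Real.log ‖A.ℓ A.X0‖| / Real.log 2 * Real.log (1 + ρ) := by
    refine le_trans (le_of_eq ?_) (mul_le_mul_of_nonneg_left h5 (by positivity))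
    field_simp
  have h7 := neg_abs_le (Real.log ‖A.ℓ A.X0‖)
  rw [key, mul_assoc, ← mul_neg]
  refine mul_le_mul_of_nonneg_left ?_ hc.le
  linarith

end Model

end Crest.Agent.R182
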