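import Crest.Agent.R182.B3.Base

/-! R182/B3/Down: the preimage of a descending ray (owner helper65; statements frozen, tell helper65 if one is false). -/

set_option autoImplicit false
set_option linter.unusedVariables false
set_option linter.unusedSectionVars false
open Set Filter Topology MeasureTheory ProbabilityTheory Matrix Crest.GroupTheory
open scoped Pointwise commutatorElement ENNReal

noncomputable section
namespace Crest.Agent.R182

namespace Model
variable {h k : ℕ} (M : Model h k)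

theorem b3d_key {φ : M.G → M.G} {L' : Mat k} {ε B : ℝ} (hε : 0 ≤ ε) (hP : M.Prof φ L' fun n => ε * n + B) (d' p : M.G) {s : M.G}
    (hs : s ∈ M.ballR 1) (h0 : M.chi s = 0) (j : ℕ) :
    ‖M.cc φ (s * d'⁻¹ ^ j) p + (j : ℝ) • L' *ᵥ M.chi d'‖ ≤ ε * (1 + j * M.len d') + B := by
  have h1 := hP p (s * d'⁻¹ ^ j)
  rw [M.chi_mul, h0, zero_add, M.chi_pow, M.chi_inv, mulVec_smul, mulVec_neg, smul_neg, sub_neg_eq_add] at h1
  refine h1.trans (add_le_add (mul_le_mul_of_nonneg_left ?_ hε) le_rfl)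
  have h2 : M.len (d'⁻¹ ^ j) ≤ j * M.len d' := by
    have := wl_zpow M.closure_K d'⁻¹ j
    rwa [zpow_natCast, Int.natAbs_natCast, wl_inv M.closure_K] at this
  have h3 : (M.len (s * d'⁻¹ ^ j) : ℝ) ≤ M.len s + j * M.len d' := by exact_mod_cast (M.len_mul _ _).trans (Nat.add_le_add_left h2 _)
  exact h3.trans (add_le_add hs le_rfl)

/-- `l = l₀ ++ l₁`: `l₀` a geodesic word (`exists_wrd`) for `q⁻¹ * ψ (φ q)` (length `≤ K`, `f.left`), `l₁` from `Lip.exists_image` for `f.ψ` at the base point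
`φ q` and the list `s :: List.replicate i d'⁻¹` (steps in `ballR (max 1 (len d'))`).  A prefix of the list is `1` (take `j = 0`, `cc_one`) or
`s * d'⁻¹ ^ j`, of length `≤ 1 + j * len d'` and height `-(j • chi d')`; `Prof`, `norm_chi_le`.  If `K < 1` there is no `f`. -/
theorem exists_down (K : ℝ) (L' : Mat k) (d' : M.G) : ∃ C : ℝ, 1 ≤ C ∧ ∀ (f : M.QP K) (ε B : ℝ), 0 ≤ ε → ε ≤ 1 → 0 ≤ B →
    (M.Prof f.ψ L' fun n => ε * n + B) → ∀ (q s : M.G) (i : ℕ), s ∈ M.ballR 1 → M.chi s = 0 →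
      ∃ l, M.Wrd l ∧ q * l.prod = f.ψ (f.φ q * (s * d'⁻¹ ^ i)) ∧ (l.length : ℝ) ≤ C * (i + 1) ∧
        (∀ l', l' <+: l → ∃ j : ℕ, (l'.length : ℝ) ≤ C * (j + 1) ∧
          ‖M.chi l'.prod + (j : ℝ) • L' *ᵥ M.chi d'‖ ≤ C * (ε * j + B + 1)) ∧
        ‖M.chi l.prod + (i : ℝ) • L' *ᵥ M.chi d'‖ ≤ C * (ε * i + B + 1) := by
  by_cases hK : 1 ≤ K
  swap
  · exact ⟨1, le_rfl, fun f => absurd f.one_le hK⟩
  have hm : (0 : ℝ) ≤ M.len d' := Nat.cast_nonneg _
  set m : ℝ := ((M.len d' : ℕ) : ℝ) with hm'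
  set A := K * (1 + m) + K with hA
  have hA0 : 0 ≤ A := by positivity
  refine ⟨K + 2 * A + 1 + m, by linarith, fun f ε B hε hε1 hB hP q s i hs h0 => ?_⟩
  obtain ⟨l₀, a1, a2, a3⟩ := M.exists_wrd (q⁻¹ * f.ψ (f.φ q))
  have a4 : (l₀.length : ℝ) ≤ K := a2 ▸ f.left q
  have a5 : ∀ l', l' <+: l₀ → (l'.length : ℝ) ≤ K ∧ ‖M.chi l'.prod‖ ≤ K := fun l' h' => by
    have h1 : (l'.length : ℝ) ≤ K := le_trans (by exact_mod_cast h'.length_le) a4
    exact ⟨h1, (M.norm_chi_le _).trans (le_trans (by exact_mod_cast (a1.of_prefix h').len_le) h1)⟩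
  obtain ⟨l₁, b1, b2, b3, b4⟩ := Lip.exists_image (Λ := 1 + m) (by linarith) (by linarith) f.lψ (f.φ q)
    (l := s :: List.replicate i d'⁻¹) fun x hx => by
      rcases List.mem_cons.1 hx with rfl | hx
      · exact M.ballR_mono (by linarith) hs
      · rw [List.eq_of_mem_replicate hx]
        exact M.inv_mem_ballR (show m ≤ 1 + m by linarith)
  rw [List.prod_cons, List.prod_replicate] at b2
  rw [List.length_cons, List.length_replicate, Nat.cast_add_one, ← hA] at b3
  have key := M.b3d_key hε hP d' (f.φ q) hs h0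
  have fin : ∀ (j : ℕ) (x : ℝ), x ≤ K + A + (ε * (1 + j * m) + B) → x ≤ (K + 2 * A + 1 + m) * (ε * j + B + 1) := fun j x hx => by
    have h1 : 0 ≤ ε * j := by positivity
    have h2 := mul_nonneg (show 0 ≤ K + 2 * A + 1 by linarith) h1
    have h3 := mul_nonneg (show 0 ≤ K + 2 * A + m by linarith) hB
    linarith
  refine ⟨l₀ ++ l₁, a1.append b1, by rw [List.prod_append, a3, b2]; group, ?_, fun l' h' => ?_, fin _ _ ?_⟩
  · rw [List.length_append, Nat.cast_add]
    have := mul_nonneg (show 0 ≤ K + A + 1 + m by linarith) (Nat.cast_nonneg i)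
    linarith
  · rcases List.prefix_or_prefix_of_prefix h' (List.prefix_append l₀ l₁) with h1 | ⟨t, rfl⟩
    · refine ⟨0, ?_, fin _ _ ?_⟩
      · rw [Nat.cast_zero]
        linarith [(a5 l' h1).1]
      · rw [Nat.cast_zero, zero_smul, add_zero]
        linarith [(a5 l' h1).2]
    have h2 := (List.prefix_append_right_inj l₀).1 h'
    obtain ⟨j, c1, c2, c3⟩ := b4 t.length h2.length_le
    rw [← List.prefix_iff_eq_take.1 h2, ← hA] at c3
    rw [← hA] at c2
    obtain ⟨j', d1, d2⟩ : ∃ j' : ℕ, j ≤ j' + 1 ∧ ‖M.cc f.ψ ((s :: List.replicate i d'⁻¹).take j).prod (f.φ q) +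
        (j' : ℝ) • L' *ᵥ M.chi d'‖ ≤ ε * (1 + j' * m) + B := by
      rcases j with _ | j
      · exact ⟨0, zero_le_one, by simpa [M.cc_one] using add_nonneg hε hB⟩
      · refine ⟨j, le_rfl, ?_⟩
        rw [List.take_succ_cons, List.take_replicate, min_eq_left (by simpa using c1), List.prod_cons, List.prod_replicate]
        exact key j
    refine ⟨j', ?_, fin _ _ ?_⟩
    · rw [List.length_append, Nat.cast_add]
      have h3 := mul_le_mul_of_nonneg_left (show (j : ℝ) ≤ j' + 1 by exact_mod_cast d1) hA0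
      have h4 := mul_nonneg (show 0 ≤ K + A + 1 + m by linarith) (Nat.cast_nonneg j')
      linarith
    · rw [List.prod_append, M.chi_mul, add_assoc, ← sub_add_cancel (M.chi t.prod) (M.cc f.ψ _ (f.φ q)), add_assoc, add_assoc K]
      exact norm_add_le_of_le (a5 l₀ List.prefix_rfl).2 (norm_add_le_of_le c3 d2)
  · rw [List.prod_append, M.chi_mul, add_assoc, b2, ← M.cc_eq]
    linarith [norm_add_le_of_le (a5 l₀ List.prefix_rfl).2 (key i)]

end Model

end Crest.Agent.R182
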