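import Crest.Agent.R182.B3.Root

/-! R182/B3/Gen: general elements of `E` (owner helper65; statements frozen, tell helper65 if one is false). -/

set_option autoImplicit false
set_option linter.unusedVariables false
set_option linter.unusedSectionVars false
open Set Filter Topology MeasureTheory ProbabilityTheory Matrix Crest.GroupTheory
open scoped Pointwise commutatorElement ENNReal

noncomputable section
namespace Crest.Agent.R182

namespace Model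
variable {h k : ℕ} (M : Model h k)

theorem b3gen_list (φ : M.G → M.G) {P : ℝ} (l : List (V h)) (hl : ∀ v ∈ l, ∀ q, ‖M.cc φ (M.exp v) q‖ ≤ P) (q : M.G) :
    ‖M.cc φ (l.map M.exp).prod q‖ ≤ l.length * P := by
  induction l generalizing q with
  | nil => simp [M.cc_one]
  | cons v l ih =>
    rw [List.map_cons, List.prod_cons, M.cc_mul, List.length_cons, Nat.cast_succ, add_mul, one_mul, add_comm _ P]
    exact (norm_add_le _ _).trans (add_le_add (hl v List.mem_cons_self q) (ih (fun w hw => hl w (List.mem_cons_of_mem _ hw)) _))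

/-- `exp (-ρ) • X ∈ EV 0 ⊆ D • Box 0` (`EV_zero_subset`), `Box 0 ⊆ exp (-(b s)) • Box s` with `s = ρ / b` (`Box_scale`), so `X ∈ D • Box (ρ / b)`;
`exists_reach D` (`star_RV`): `exp X` is a product of at most `N` elements `exp v`, `v ∈ RV (ρ / b)`, `‖v‖ ≤ exp (C₀ ρ)` (`bxf_RV`, `C₀ ≥ 1`);
`log (1 + C₀ ρ) ≤ C₀ log (1 + ρ)` (Bernoulli, `one_add_mul_self_le_rpow_one_add`); induction on the list with `cc_mul`, `cc_one`. -/
theorem hie_gen : ∃ C : ℝ, 1 ≤ C ∧ ∀ (φ : M.G → M.G) (H : ℝ), 0 ≤ H →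
    (∀ (q : M.G) (ρ : ℝ), 1 ≤ ρ → ∀ α, α ≠ 0 → ∀ X ∈ M.W α, ‖X‖ ≤ Real.exp ρ → ‖M.cc φ (M.exp X) q‖ ≤ H * Real.log (1 + ρ)) →
      M.Hie φ (C * H) := by
  obtain ⟨D, hD, hEV⟩ := M.EV_zero_subset
  obtain ⟨b, B, hb, -, hB⟩ := M.Box_scale
  obtain ⟨N, hN⟩ := M.exists_reach D
  set C₀ : ℝ := max 1 ((1 + ∑ j, nm (M.wt j)) / b) with hC₀
  have h1 : 1 ≤ C₀ := le_max_left _ _
  have hN0 : (0 : ℝ) ≤ N := Nat.cast_nonneg _
  refine ⟨(N + 1) * C₀, by nlinarith, fun φ H hH hr q ρ hρ X hX hn => ?_⟩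
  have hs : 0 ≤ ρ / b := by positivity
  obtain ⟨h2, h3⟩ := bxc_norm (a := ρ) (r' := 0) hn (by simp)
  obtain ⟨Y, hY, hY'⟩ := hEV (show Real.exp (-ρ) • X ∈ M.EV 0 from ⟨M.E.smul_mem _ hX, h2⟩)
  obtain ⟨Z, hZ, hZ'⟩ := (hB 0 _ hs).2 hY
  rw [zero_add] at hZ
  have h4 : M.In (M.RV (ρ / b)) 1 D X := by
    refine ⟨Z, hZ, ?_⟩
    simp only at hY' hZ' ⊢
    rw [h3, ← hY', ← hZ', mul_div_cancel₀ _ hb.ne', smul_comm (Real.exp ρ) D, smul_smul (Real.exp ρ), ← Real.exp_add, add_neg_cancel,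
      Real.exp_zero, one_smul]
  obtain ⟨l, hl, hl', hp⟩ := hN _ (M.star_RV _) X h4
  have hlog : Real.log (1 + C₀ * ρ) ≤ C₀ * Real.log (1 + ρ) := by
    rw [← Real.log_rpow (by linarith)]
    exact Real.log_le_log (by positivity) (one_add_mul_self_le_rpow_one_add (by linarith) h1)
  have hl0 : 0 ≤ Real.log (1 + ρ) := Real.log_nonneg (by linarith)
  have h5 : ∀ v ∈ l, ∀ q, ‖M.cc φ (M.exp v) q‖ ≤ H * (C₀ * Real.log (1 + ρ)) := by
    intro v hv q
    have h6 := M.bxf_RV hs (hl' v hv)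
    rcases hl' v hv with rfl | ⟨α, hα, hW, -⟩
    · rw [M.exp_zero, M.cc_one, norm_zero]
      positivity
    · refine (hr q (C₀ * ρ) (by nlinarith) α hα v hW (h6.trans (Real.exp_le_exp.2 ?_))).trans (mul_le_mul_of_nonneg_left hlog hH)
      rw [← mul_div_assoc, mul_div_right_comm]
      exact mul_le_mul_of_nonneg_right (le_max_right _ _) (by linarith)
  rw [← hp]
  refine (M.b3gen_list φ l h5 q).trans ?_
  have h6 : (l.length : ℝ) ≤ N + 1 := by
    have : (l.length : ℝ) ≤ N := by exact_mod_cast hl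
    linarith
  calc (l.length : ℝ) * (H * (C₀ * Real.log (1 + ρ))) ≤ (N + 1) * (H * (C₀ * Real.log (1 + ρ))) :=
        mul_le_mul_of_nonneg_right h6 (by positivity)
    _ = _ := by ring

theorem hie' (K : ℝ) : ∃ ε : ℝ, 0 < ε ∧ ∀ B : ℝ, ∃ B' : ℝ, 0 ≤ B' ∧ ∀ f : M.QP K, ∀ L ∈ M.W1,
    (M.Prof f.φ L fun n => ε * n + B) → M.Hie f.φ B' := by
  obtain ⟨C, hC, hg⟩ := M.hie_gen
  obtain ⟨ε, hε, hr⟩ := M.hie_root K
  refine ⟨ε, hε, fun B => ?_⟩
  obtain ⟨B', hB', h⟩ := hr B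
  exact ⟨C * B', by positivity, fun f L hL hP => hg _ _ hB' (h f L hL hP)⟩

end Model

end Crest.Agent.R182
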