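import Crest.Agent.R182.B3.Dir

/-! R182/B3/Root: root vectors (owner helper65; statements frozen, tell helper65 if one is false). -/

set_option autoImplicit false
set_option linter.unusedVariables false
set_option linter.unusedSectionVars false
open Set Filter Topology MeasureTheory ProbabilityTheory Matrix Crest.GroupTheory
open scoped Pointwise commutatorElement ENNReal

noncomputable section
namespace Crest.Agent.R182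

namespace Model
variable {h k : ℕ} (M : Model h k)

/-- `exists_dirs`; `exists_unif` over the finite set of triples `(L, d, α') ∈ W1 ×ˢ 𝒟 ×ˢ R1` with `0 < α' ⬝ᵥ chi d` (`hie_dir`, `Prof.mono`).
`X = 0` is trivial (`exp_zero`, `cc_one`); otherwise `α = wt j` (`mem_W`).  `exists_norm_le_offray` with `γ = α` for the vector `L⁻¹ *ᵥ cc`: for `α' = wt i ∈ R1`
off the ray, `Dirs.sep` gives `d` with `0 < α' ⬝ᵥ chi d`, `α ⬝ᵥ chi d < 0`, so `X, -X ∈ mI (chi d)` (`W_le_idl`); use `(q, X)` and `(q * exp X, -X)`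
(`exp_neg`, `cc_inv`).  Finally `cc = L *ᵥ L⁻¹ *ᵥ cc`, `exists_mb_W1`, `Mb.norm_mulVec`. -/
theorem hie_root (K : ℝ) : ∃ ε : ℝ, 0 < ε ∧ ∀ B : ℝ, ∃ B' : ℝ, 0 ≤ B' ∧ ∀ f : M.QP K, ∀ L ∈ M.W1,
    (M.Prof f.φ L fun n => ε * n + B) → ∀ (q : M.G) (ρ : ℝ), 1 ≤ ρ → ∀ α, α ≠ 0 → ∀ X ∈ M.W α, ‖X‖ ≤ Real.exp ρ →
      ‖M.cc f.φ (M.exp X) q‖ ≤ B' * Real.log (1 + ρ) := by
  obtain ⟨𝒟, h𝒟⟩ := M.exists_dirs
  obtain ⟨Λ, hΛ, hMb⟩ := M.exists_mb_W1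
  obtain ⟨B₀, hB₀, hoff⟩ := M.exists_norm_le_offray
  have hfin : {t : Mat k × M.G × (Fin k → ℝ) | t ∈ M.W1 ×ˢ (↑𝒟 : Set M.G) ×ˢ M.R1 ∧ 0 < t.2.2 ⬝ᵥ M.chi t.2.1}.Finite :=
    (M.finite_W1.prod (𝒟.finite_toSet.prod M.finite_R1)).subset fun t ht => ht.1
  obtain ⟨ε, hε, H⟩ := exists_unif hfin (fun t ε B B' => ∀ f : M.QP K, (M.Prof f.φ t.1 fun n => ε * n + B) →
      ∀ (q : M.G) (ρ : ℝ), 1 ≤ ρ → ∀ X ∈ M.mI (M.chi t.2.1), ‖X‖ ≤ Real.exp ρ →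
        -(B' * Real.log (1 + ρ)) ≤ t.2.2 ⬝ᵥ t.1⁻¹ *ᵥ M.cc f.φ (M.exp X) q)
    (fun t ε ε' B B' B'' _ h1 h2 h3 f hP q ρ hρ X hX hX' => by
      refine le_trans ?_ (h3 f (hP.mono h1 le_rfl) q ρ hρ X hX hX')
      have := mul_le_mul_of_nonneg_right h2 (Real.log_nonneg (show 1 ≤ 1 + ρ by linarith))
      linarith)
    fun t ht => M.hie_dir K h𝒟 ht.1.1 ht.1.2.1 ht.1.2.2 ht.2
  refine ⟨ε, hε, fun B => ?_⟩
  obtain ⟨B', hB', H'⟩ := H B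
  refine ⟨k * Λ * (B₀ * B'), by positivity, fun f L hL hP q ρ hρ α hα X hX hX' => ?_⟩
  have hlog : 0 ≤ Real.log (1 + ρ) := Real.log_nonneg (by linarith)
  by_cases h0 : X = 0
  · rw [h0, M.exp_zero, M.cc_one, norm_zero]
    positivity
  obtain ⟨j, hj⟩ := Function.ne_iff.1 h0
  obtain rfl : M.wt j = α := by
    by_contra hne
    exact hj (M.mem_W.1 hX j hne)
  have h1 : ‖L⁻¹ *ᵥ M.cc f.φ (M.exp X) q‖ ≤ B₀ * (B' * Real.log (1 + ρ)) := by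
    refine hoff (M.wt j) _ _ (by positivity) fun β hβ hn => ?_
    obtain ⟨hβ0, i, hi, rfl⟩ := id hβ
    obtain ⟨d, hd, h2, h3⟩ := h𝒟.sep hβ0 hα (by
      rintro ⟨c, hc, e⟩
      exact hn ⟨c⁻¹, inv_pos.2 hc, by rw [e, smul_smul, inv_mul_cancel₀ hc.ne', one_smul]⟩)
    have hm : X ∈ M.mI (M.chi d) := M.W_le_idl (𝒜 := {α | α ⬝ᵥ M.chi d < 0}) h3 hX
    have h4 := H' (L, d, M.wt i) ⟨⟨hL, hd, hβ⟩, h2⟩ f hP q ρ hρ X hm hX'
    have h5 := H' (L, d, M.wt i) ⟨⟨hL, hd, hβ⟩, h2⟩ f hP (q * M.exp X) ρ hρ (-X) (neg_mem hm) (by rwa [norm_neg])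
    rw [M.exp_neg, M.cc_inv, mulVec_neg, dotProduct_neg] at h5
    exact abs_le.2 ⟨h4, by linarith⟩
  have h2 : M.cc f.φ (M.exp X) q = L *ᵥ L⁻¹ *ᵥ M.cc f.φ (M.exp X) q := by
    rw [mulVec_mulVec, mul_nonsing_inv _ (isUnit_iff_ne_zero.2 hL.1), one_mulVec]
  rw [h2]
  refine ((hMb L hL).norm_mulVec _).trans ?_
  have := mul_le_mul_of_nonneg_left h1 (show 0 ≤ k * Λ by positivity)
  linarith

end Model

end Crest.Agent.R182
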